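import Crest.Agent.R27.A.Rsum

/-!
Row 27, block F: primary elements and counting (only what the block uses).
-/

set_option autoImplicit false
set_option linter.unusedSectionVars false

namespace Crest.Agent.R27.F

open Crest.Agent.R27.Ab
open scoped Classical ComplexConjugate

variable {R : Type} [CommRing R] [IsDomain R] [IsPrincipalIdealRing R] [Abs R]

theorem p_ne {n : R} (h : Prim n) : n ≠ 0 := Ar.pr_ne n h

theorem p_one : Prim (1 : R) := (Pr R).one_mem

theorem p_mul {a b : R} (ha : Prim a) (hb : Prim b) : Prim (a * b) := (Pr R).mul_mem ha hb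

theorem p_pow {a : R} (ha : Prim a) (k : ℕ) : Prim (a ^ k) := (Pr R).pow_mem ha k

theorem p_of_mul {a b : R} (ha : Prim a) (hab : Prim (a * b)) : Prim b := by
  obtain ⟨n, hn, h⟩ := Ar.pr_ex b (right_ne_zero_of_mul (p_ne hab))
  have h1 := Ar.pr_uniq _ _ hab (p_mul ha hn) (h.mul_left a)
  rwa [mul_left_cancel₀ (p_ne ha) h1]

theorem p_ind {P : R → Prop} {n : R} (hn : Prim n) (h1 : P 1)
    (hm : ∀ p k m, Prime p → Prim p → Prim m → ¬ p ∣ m → P m → P (p ^ (k + 1) * m)) : P n := by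
  induction hN : nN n using Nat.strong_induction_on generalizing n with
  | _ N ih =>
    by_cases h : IsUnit n
    · rw [Ar.pr_uniq n 1 hn p_one (associated_one_iff_isUnit.2 h)]
      exact h1
    obtain ⟨z, hz, hd⟩ := WfDvdMonoid.exists_irreducible_factor h (p_ne hn)
    obtain ⟨p, hp', ha⟩ := Ar.pr_ex z hz.ne_zero
    have hp : Prime p := ha.prime hz.prime
    obtain ⟨k, m, hpm, rfl⟩ := WfDvdMonoid.max_power_factor (p_ne hn) hp.irreducible
    have hm' : Prim m := p_of_mul (p_pow hp' k) hn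
    obtain _ | k := k
    · exact absurd (by simpa using ha.symm.dvd.trans hd) hpm
    refine hm p k m hp hp' hm' hpm (ih (nN m) ?_ hm' rfl)
    have h2 : 2 ≤ nN p := by
      have := two_le_nm hp
      unfold nm at this
      exact_mod_cast this
    have h0 : 0 < nN m := Nat.pos_of_ne_zero fun h => p_ne hm' (nN_eq_zero.1 h)
    rw [← hN, nN_mul, nN_pow]
    have : 1 < nN p ^ (k + 1) := Nat.one_lt_pow (Nat.succ_ne_zero k) h2
    nlinarith

theorem p_gcd {a b : R} (ha : Prim a) (hb : Prim b) :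
    ∃ g a' b', Prim g ∧ Prim a' ∧ Prim b' ∧ a = g * a' ∧ b = g * b' ∧ IsCoprime a' b' := by
  obtain ⟨x, y, hxy⟩ := IsBezout.gcd_eq_sum a b
  have h₁ := IsBezout.gcd_dvd_left a b
  have h₂ := IsBezout.gcd_dvd_right a b
  obtain ⟨g, hg, u, hu⟩ := Ar.pr_ex _ (ne_zero_of_dvd_ne_zero (p_ne ha) h₁)
  have h3 : g ∣ IsBezout.gcd a b := ⟨(u⁻¹ : Rˣ), by rw [← hu, Units.mul_inv_cancel_right]⟩
  obtain ⟨a', ha'⟩ := h3.trans h₁
  obtain ⟨b', hb'⟩ := h3.trans h₂
  refine ⟨g, a', b', hg, p_of_mul hg (ha' ▸ ha), p_of_mul hg (hb' ▸ hb), ha', hb',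
    u * x, u * y, mul_left_cancel₀ (p_ne hg) ?_⟩
  linear_combination (u : R) * hxy + hu - (u : R) * x * ha' - (u : R) * y * hb'

theorem p_sqf {p d : R} (hp : Prime p) (hd : Squarefree d) (h : ¬ p ∣ d) : Squarefree (p * d) :=
  squarefree_mul_iff.2 ⟨(hp.coprime_iff_not_dvd.2 h).isRelPrime, hp.squarefree, hd⟩

theorem p_sq {b : R} (hb : Prim b) : ∃ d e, Prim d ∧ Prim e ∧ Squarefree d ∧ b = d * e ^ 2 := by
  refine p_ind (P := fun b => ∃ d e, Prim d ∧ Prim e ∧ Squarefree d ∧ b = d * e ^ 2) hb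
    ⟨1, 1, p_one, p_one, squarefree_one, by simp⟩ ?_
  rintro p k _ hp hp' - hnd ⟨d, e, hd, he, hs, rfl⟩
  obtain ⟨j, hj | hj⟩ := Nat.even_or_odd' (k + 1)
  · exact ⟨d, p ^ j * e, hd, p_mul (p_pow hp' j) he, hs, by rw [hj]; ring⟩
  · exact ⟨p * d, p ^ j * e, p_mul hp' hd, p_mul (p_pow hp' j) he,
      p_sqf hp hs fun h => hnd (h.mul_right _), by rw [hj]; ring⟩

theorem p_count : ∃ C : ℝ, 0 ≤ C ∧ ∀ (X : ℝ) (B : Finset R), 1 ≤ X →
    (∀ n ∈ B, Prim n ∧ nm n ≤ X) → (B.card : ℝ) ≤ C * X := by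
  obtain ⟨C, hC⟩ := Abs.count (R := R)
  exact ⟨max C 0, le_max_right _ _, fun X B hX hB =>
    (hC X B hX hB).trans (mul_le_mul_of_nonneg_right (le_max_left _ _) (by linarith))⟩

theorem p_fin (X : ℝ) : {n : Pr R | nm (n : R) ≤ X}.Finite := by
  obtain ⟨C, -, hC⟩ := p_count (R := R)
  by_contra h
  obtain ⟨N, hN⟩ := exists_nat_gt (C * max X 1)
  obtain ⟨S, hS, hc⟩ := Set.Infinite.exists_subset_card_eq h N
  have := hC (max X 1) (S.map (Function.Embedding.subtype _)) (le_max_right _ _) fun n hn => by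
    obtain ⟨m, hm, rfl⟩ := Finset.mem_map.1 hn
    exact ⟨m.2, le_trans (hS hm) (le_max_left _ _)⟩
  rw [Finset.card_map, hc] at this
  linarith

theorem p_sum {σ : ℝ} (hσ : 1 < σ) : ∃ C : ℝ, 0 ≤ C ∧ ∀ A : Finset R, (∀ n ∈ A, Prim n) →
    ∑ n ∈ A, nm n ^ (-σ) ≤ C := by
  obtain ⟨C, hC, H⟩ := p_count (R := R)
  set r : ℝ := 2 ^ (1 - σ) with hr
  have hr0 : 0 < r := by positivity
  have hr1 : r < 1 := Real.rpow_lt_one_of_one_lt_of_neg one_lt_two (by linarith)
  refine ⟨2 * C * (1 - r)⁻¹, by have : 0 < 1 - r := by linarith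
                                positivity, fun A hA => ?_⟩
  have hl : ∀ n ∈ A, (2 : ℝ) ^ Nat.log 2 (nN n) ≤ nm n ∧ nm n ≤ 2 ^ (Nat.log 2 (nN n) + 1) :=
    fun n hn => by
      have h1 := Nat.pow_log_le_self 2 (mt nN_eq_zero.1 (p_ne (hA n hn)))
      have h2 := (Nat.lt_pow_succ_log_self one_lt_two (nN n)).le
      unfold nm
      exact ⟨by exact_mod_cast h1, by exact_mod_cast h2⟩
  rw [← Finset.sum_fiberwise_of_maps_to (g := fun n => Nat.log 2 (nN n))
    fun n hn => Finset.mem_image_of_mem (fun n => Nat.log 2 (nN n)) hn]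
  refine le_trans (Finset.sum_le_sum (g := fun i => 2 * C * r ^ i) fun i _ => ?_) ?_
  · have h1 := H (2 ^ (i + 1)) (A.filter fun n => Nat.log 2 (nN n) = i) (one_le_pow₀ one_le_two)
      fun n hn => by
        obtain ⟨h2, rfl⟩ := Finset.mem_filter.1 hn
        exact ⟨hA n h2, (hl n h2).2⟩
    calc _ ≤ (A.filter fun n => Nat.log 2 (nN n) = i).card • ((2 : ℝ) ^ i) ^ (-σ) :=
          Finset.sum_le_card_nsmul _ _ _ fun n hn => by
            obtain ⟨h2, rfl⟩ := Finset.mem_filter.1 hn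
            exact Real.rpow_le_rpow_of_nonpos (by positivity) (hl n h2).1 (by linarith)
      _ ≤ C * 2 ^ (i + 1) * ((2 : ℝ) ^ i) ^ (-σ) := by
          rw [nsmul_eq_mul]
          exact mul_le_mul_of_nonneg_right h1 (by positivity)
      _ = _ := by
          rw [hr, ← Real.rpow_natCast (2 ^ (1 - σ)), ← Real.rpow_mul zero_le_two, mul_comm (1 - σ),
            Real.rpow_mul zero_le_two, Real.rpow_natCast, sub_eq_add_neg,
            Real.rpow_add (by positivity), Real.rpow_one]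
          ring
  · rw [← Finset.mul_sum, ← tsum_geometric_of_lt_one hr0.le hr1]
    exact mul_le_mul_of_nonneg_left ((summable_geometric_of_lt_one hr0.le hr1).sum_le_tsum _
      fun _ _ => by positivity) (by positivity)

theorem p_summable {σ : ℝ} (hσ : 1 < σ) : Summable fun n : Pr R => nm (n : R) ^ (-σ) := by
  obtain ⟨C, -, H⟩ := p_sum (R := R) hσ
  refine summable_of_sum_le (c := C) (fun n => Real.rpow_nonneg (nm_nonneg _) _) fun S => ?_
  have := H (S.map (Function.Embedding.subtype _)) fun n hn => by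
    obtain ⟨m, -, rfl⟩ := Finset.mem_map.1 hn
    exact m.2
  rwa [Finset.sum_map] at this

theorem p_inv {ε : ℝ} (hε : 0 < ε) : ∃ C : ℝ, 0 ≤ C ∧ ∀ (X : ℝ) (A : Finset R), 0 ≤ X →
    (∀ n ∈ A, Prim n ∧ nm n ≤ X) → ∑ n ∈ A, (nm n)⁻¹ ≤ C * X ^ ε := by
  obtain ⟨C, hC, H⟩ := p_sum (R := R) (σ := 1 + ε) (by linarith)
  refine ⟨C, hC, fun X A hX hA => ?_⟩
  refine le_trans (Finset.sum_le_sum (g := fun n => nm n ^ (-(1 + ε)) * X ^ ε) fun n hn => ?_) ?_
  · have h0 := nm_pos (p_ne (hA n hn).1)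
    calc (nm n)⁻¹ = nm n ^ (-(1 + ε)) * nm n ^ ε := by
          rw [← Real.rpow_add h0, ← Real.rpow_neg_one]
          congr 1
          ring
      _ ≤ _ := by
          gcongr
          exact (hA n hn).2
  · rw [← Finset.sum_mul]
    exact mul_le_mul_of_nonneg_right (H A fun n hn => (hA n hn).1) (by positivity)

end Crest.Agent.R27.F
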