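import Crest.Agent.R27.F.Ker
import Crest.Agent.R17.F.Dual

/-!
Row 27, block F: from the energy of finite dual polynomials to the energy of the reflected sums.
No arithmetic: `ι` indexes the dual terms, `κ` the rows.
-/

set_option autoImplicit false

namespace Crest.Agent.R27.F

open Crest.Agent.R17 Crest.Agent.R17.F Complex
open scoped Classical ComplexConjugate

/-- dual terms `b l` of size `sz l`, rows `k` of size `nk k`, kernel `σ l k` -/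
structure Dual {ι κ : Type} (sz : ι → ℝ) (b : ι → ℂ) (σ : ι → κ → ℂ) (nk : κ → ℝ)
    (Row : κ → Prop) : Prop where
  pos : ∀ l, 0 < sz l
  fin : ∀ X : ℝ, {l | sz l ≤ X}.Finite
  adm : Adm b sz 3
  bd : ∀ l k, ‖σ l k‖ ≤ 1
  one_le : ∀ k, Row k → 1 ≤ nk k
  cnt : ∃ C : ℝ, 0 ≤ C ∧ ∀ (K : ℝ) (A : Finset κ), 1 ≤ K → (∀ k ∈ A, Row k ∧ nk k ≤ K) →
    (A.card : ℝ) ≤ C * K
  en : ∀ ε : ℝ, 0 < ε → ∃ C : ℝ, 0 ≤ C ∧ ∀ (φ : ι → ℂ) (Z K L : ℝ) (A : Finset κ) (B : Finset ι),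
    1 ≤ K → K ≤ Z → 0 ≤ L → L ≤ Z → (∀ l, ‖φ l‖ ≤ 1) → (∀ k ∈ A, Row k ∧ nk k ≤ K) →
    (∀ l ∈ B, sz l ≤ L) →
    ∑ k ∈ A, ‖∑ l ∈ B, b l * (φ l * σ l k)‖ ^ 2 ≤ C * Z ^ ε * (K * L + L ^ 2)

/-- the reflected sum of length `L` -/
noncomputable def DuS {ι : Type} (r : ℕ) (sz : ι → ℝ) (b G : ι → ℂ) (a t L : ℝ) : ℂ :=
  ∑' l, b l * G l * WR r a t (sz l / L)

variable {ι κ : Type} {sz : ι → ℝ} {b : ι → ℂ} {σ : ι → κ → ℂ} {nk : κ → ℝ} {Row : κ → Prop}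

theorem Dual.dm (h : Dual sz b σ nk Row) (r : ℕ) {a ε : ℝ} (ha : 0 < a) (hε : 0 < ε) :
    ∃ C : ℝ, 0 ≤ C ∧ ∀ (φ : ι → ℂ) (Z K L₀ L' t : ℝ) (A : Finset κ) (B : Finset ι), 1 ≤ K → K ≤ Z →
      0 < L₀ → 0 ≤ L' → L' ≤ Z → (∀ l, ‖φ l‖ ≤ 1) → (∀ k ∈ A, Row k ∧ nk k ≤ K) →
      (∀ l ∈ B, sz l ≤ L') →
      ∑ k ∈ A, ‖∑ l ∈ B, b l * (φ l * σ l k) * WR r a t (sz l / (L₀ * nk k ^ 2))‖ ^ 2 ≤
        C * Z ^ ε * (K * L' + L' ^ 2) := by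
  obtain ⟨C₁, hC₁, H₁⟩ := sepR r ha
  obtain ⟨C₂, hC₂, H₂⟩ := h.en ε hε
  refine ⟨C₁ * C₂, mul_nonneg hC₁ hC₂, fun φ Z K L₀ L' t A B hK hKZ hL₀ hL' hLZ hφ hA hB => ?_⟩
  have hk0 : ∀ k ∈ A, 0 < nk k := fun k hk => one_pos.trans_le (h.one_le k (hA k hk).1)
  have key := H₁ A B (fun k l => b l * (φ l * σ l k)) (fun k l => sz l / (L₀ * nk k ^ 2)) t
    (C₂ * Z ^ ε * (K * L' + L' ^ 2))
    (fun k hk l _ => by
      have h1 := hk0 k hk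
      have h2 := h.pos l
      positivity)
    (fun v => by
      have h1 := H₂ (fun l => φ l * exp (((-(Real.log (sz l) * v) : ℝ) : ℂ) * I)) Z K L' A B hK hKZ
        hL' hLZ (fun l => by rw [norm_mul, norm_exp_ofReal_mul_I, mul_one]; exact hφ l) hA hB
      refine le_trans (le_of_eq (Finset.sum_congr rfl fun k hk => ?_)) h1
      have h2 := hk0 k hk
      congr 1
      rw [← one_mul ‖∑ l ∈ B, b l * (φ l * _ * σ l k)‖,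
        ← norm_exp_ofReal_mul_I (Real.log (L₀ * nk k ^ 2) * v), ← norm_mul, Finset.mul_sum]
      congr 1
      refine Finset.sum_congr rfl fun l _ => ?_
      have h3 := duala_cpow (h.pos l) (show 0 < L₀ * nk k ^ 2 by positivity) one_pos v
      rw [mul_one] at h3
      rw [h3]
      simp only [Real.log_one, zero_mul, ofReal_zero, Complex.exp_zero]
      ring)
  exact key.trans (le_of_eq (by ring))

theorem dt_num {δ Z U L Λ : ℝ} {m : ℕ} (hδ : 0 < δ) (hδ1 : δ ≤ 1) (hm : 26 ≤ δ * m) (hZ : 1 ≤ Z)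
    (hU : 1 ≤ U) (hL : 0 < L) (hLΛ : L ≤ Λ) (hΛ : Λ ≤ Z ^ 3) :
    ((U * L / (Z ^ δ * U * Λ)) ^ ((m + 1) / 2 : ℝ) * (Z ^ δ * U * Λ) ^ 3) ^ 2 ≤
      U ^ 6 * (Z ^ 2)⁻¹ := by
  have hZ0 : 0 < Z := by linarith
  have hU0 : 0 < U := by linarith
  have hΛ0 : 0 < Λ := lt_of_lt_of_le hL hLΛ
  have hZδ : 0 < Z ^ δ := Real.rpow_pos_of_pos hZ0 δ
  have h1 : U * L / (Z ^ δ * U * Λ) ≤ Z ^ (-δ) := by
    rw [Real.rpow_neg hZ0.le, div_le_iff₀ (by positivity)]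
    calc U * L ≤ U * Λ := by gcongr
      _ = (Z ^ δ)⁻¹ * (Z ^ δ * U * Λ) := by field_simp
  have h2 : (U * L / (Z ^ δ * U * Λ)) ^ ((m + 1) / 2 : ℝ) ≤ (Z ^ 13)⁻¹ := by
    refine le_trans (Real.rpow_le_rpow (by positivity) h1 (by positivity)) ?_
    rw [← Real.rpow_mul hZ0.le, ← Real.rpow_natCast, ← Real.rpow_neg hZ0.le]
    exact Real.rpow_le_rpow_of_exponent_le hZ (by push_cast; nlinarith)
  have h3 : Z ^ δ * U * Λ ≤ Z ^ 4 * U := by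
    have : Z ^ δ ≤ Z := by simpa using Real.rpow_le_rpow_of_exponent_le hZ hδ1
    calc Z ^ δ * U * Λ ≤ Z * U * Z ^ 3 := by gcongr
      _ = Z ^ 4 * U := by ring
  calc _ ≤ ((Z ^ 13)⁻¹ * (Z ^ 4 * U) ^ 3) ^ 2 := by gcongr
    _ = U ^ 6 * (Z ^ 2)⁻¹ := by field_simp

theorem Dual.dt (h : Dual sz b σ nk Row) (r : ℕ) {a δ : ℝ} (ha : 0 < a) (hδ : 0 < δ)
    (hδ1 : δ ≤ 1) : ∃ C : ℝ, 0 ≤ C ∧ ∀ (φ : ι → ℂ) (Z K L₀ t : ℝ) (A : Finset κ) (B : Finset ι),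
      1 ≤ K → K ≤ Z → 0 < L₀ → L₀ ≤ Z → (∀ l, ‖φ l‖ ≤ 1) → (∀ k ∈ A, Row k ∧ nk k ≤ K) →
      (∀ l, l ∉ B → Z ^ δ * (1 + |t|) ^ (4 * r) * (L₀ * K ^ 2) ≤ sz l) →
      ∑ k ∈ A, ‖DuS r sz b (fun l => φ l * σ l k) a t (L₀ * nk k ^ 2) -
          ∑ l ∈ B, b l * (φ l * σ l k) * WR r a t (sz l / (L₀ * nk k ^ 2))‖ ^ 2 ≤
        C * (1 + |t|) ^ (24 * r) * Z⁻¹ := by
  obtain ⟨m, hm⟩ := exists_nat_ge (26 / δ)
  have hm26 : 26 ≤ δ * m := by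
    rw [div_le_iff₀ hδ] at hm
    linarith
  have hm5 : 5 ≤ m := by
    have : (5 : ℝ) ≤ m := by nlinarith [Nat.cast_nonneg (α := ℝ) m]
    exact_mod_cast this
  obtain ⟨C, hC0, hC⟩ := tailR h.adm h.pos r ha hm5
  obtain ⟨C₁, hC₁, hc⟩ := h.cnt
  refine ⟨C₁ * C ^ 2, by positivity, fun φ Z K L₀ t A B hK hKZ hL₀ hLZ hφ hA hB => ?_⟩
  have hZ : 1 ≤ Z := hK.trans hKZ
  have hZ0 : 0 < Z := by linarith
  have hu : 1 ≤ (1 + |t|) ^ (4 * r) := one_le_pow₀ (by linarith [abs_nonneg t])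
  have hcA : (A.card : ℝ) ≤ C₁ * Z := (hc K A hK hA).trans (by gcongr)
  have hΛ : L₀ * K ^ 2 ≤ Z ^ 3 := by
    calc L₀ * K ^ 2 ≤ Z * Z ^ 2 := by gcongr
      _ = Z ^ 3 := by ring
  have hL' : 0 < Z ^ δ * (1 + |t|) ^ (4 * r) * (L₀ * K ^ 2) := by
    have := Real.rpow_pos_of_pos hZ0 δ
    positivity
  have key : ∀ k ∈ A, ‖DuS r sz b (fun l => φ l * σ l k) a t (L₀ * nk k ^ 2) -
      ∑ l ∈ B, b l * (φ l * σ l k) * WR r a t (sz l / (L₀ * nk k ^ 2))‖ ^ 2 ≤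
        C ^ 2 * (((1 + |t|) ^ (4 * r)) ^ 6 * (Z ^ 2)⁻¹) := by
    intro k hk
    have hk0 : 0 < nk k := one_pos.trans_le (h.one_le k (hA k hk).1)
    have hL : 0 < L₀ * nk k ^ 2 := by positivity
    have hLΛ : L₀ * nk k ^ 2 ≤ L₀ * K ^ 2 := by
      have := (hA k hk).2
      gcongr
    have h1 := hC (fun l => φ l * σ l k) t _ _ B (fun l => by
      rw [norm_mul]
      exact mul_le_one₀ (hφ l) (norm_nonneg _) (h.bd l k)) hL hL' hB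
    have h2 := dt_num hδ hδ1 hm26 hZ hu hL hLΛ hΛ
    refine (pow_le_pow_left₀ (norm_nonneg _) h1 2).trans ?_
    rw [mul_assoc C, mul_pow]
    exact mul_le_mul_of_nonneg_left h2 (by positivity)
  refine le_trans (Finset.sum_le_card_nsmul _ _ _ key) ?_
  rw [nsmul_eq_mul]
  refine le_trans (mul_le_mul_of_nonneg_right hcA (by positivity)) (le_of_eq ?_)
  rw [← pow_mul, show 4 * r * 6 = 24 * r by ring]
  field_simp

theorem Dual.sd (h : Dual sz b σ nk Row) (r : ℕ) {a ε : ℝ} (ha : 0 < a) (hε : 0 < ε) :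
    ∃ C : ℝ, 0 ≤ C ∧ ∀ (φ : ι → ℂ) (Z K L₀ t : ℝ) (A : Finset κ),
      1 ≤ K → K ≤ Z → 0 < L₀ → L₀ ≤ Z → (∀ l, ‖φ l‖ ≤ 1) → (∀ k ∈ A, Row k ∧ nk k ≤ K) →
      ∑ k ∈ A, ‖DuS r sz b (fun l => φ l * σ l k) a t (L₀ * nk k ^ 2)‖ ^ 2 ≤
        C * Z ^ ε * (1 + |t|) ^ (24 * r) * (K * (L₀ * K ^ 2) + (L₀ * K ^ 2) ^ 2 + Z⁻¹) := by
  obtain ⟨δ, hδ, hδ1, hδε⟩ : ∃ δ : ℝ, 0 < δ ∧ δ ≤ 1 ∧ 6 * δ ≤ ε :=
    ⟨min ε 1 / 10, by positivity, by linarith [min_le_right ε 1],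
      by linarith [min_le_left ε 1, lt_min hε one_pos]⟩
  obtain ⟨C₁, hC₁, H₁⟩ := h.dm r ha hδ
  obtain ⟨C₃, hC₃, H₃⟩ := h.dt r ha hδ hδ1
  refine ⟨2 * C₃ + 2 * C₁, by positivity, fun φ Z K L₀ t A hK hKZ hL₀ hLZ hφ hA => ?_⟩
  have hZ : 1 ≤ Z := hK.trans hKZ
  have hZ0 : 0 < Z := by linarith
  have hK0 : 0 < K := by linarith
  set B := (h.fin (Z ^ δ * (1 + |t|) ^ (4 * r) * (L₀ * K ^ 2))).toFinset with hB
  have h3 := H₃ φ Z K L₀ t A B hK hKZ hL₀ hLZ hφ hA fun l hl => by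
    rw [hB, Set.Finite.mem_toFinset] at hl
    exact (not_le.1 hl).le
  have hB' : ∀ l ∈ B, sz l ≤ Z ^ δ * (1 + |t|) ^ (4 * r) * (L₀ * K ^ 2) := fun l hl => by
    rwa [hB, Set.Finite.mem_toFinset] at hl
  have e24 : (1 + |t|) ^ (24 * r) = ((1 + |t|) ^ (4 * r)) ^ 6 := by rw [← pow_mul]; congr 1; ring
  have hT1 : 1 ≤ (1 + |t|) ^ (4 * r) := one_le_pow₀ (by linarith [abs_nonneg t])
  rw [e24] at h3 ⊢
  generalize (1 + |t|) ^ (4 * r) = T at h3 hB' hT1 ⊢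
  have hZδ : 1 ≤ Z ^ δ := Real.one_le_rpow hZ hδ.le
  have hZδ' : Z ^ δ ≤ Z := by simpa using Real.rpow_le_rpow_of_exponent_le hZ hδ1
  have hZ' : Z ≤ Z ^ 4 * T :=
    (le_self_pow₀ hZ (by norm_num)).trans (le_mul_of_one_le_right (by positivity) hT1)
  have hL' : Z ^ δ * T * (L₀ * K ^ 2) ≤ Z ^ 4 * T := by
    calc _ ≤ Z * T * (Z * Z ^ 2) := by gcongr
      _ = _ := by ring
  have h1 := H₁ φ (Z ^ 4 * T) K L₀ _ t A B hK (hKZ.trans hZ') hL₀ (by positivity) hL' hφ hA hB'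
  have hW : (Z ^ 4 * T) ^ δ ≤ (Z ^ δ) ^ 4 * T := by
    rw [Real.mul_rpow (by positivity) (by positivity), ← Real.rpow_natCast (Z ^ δ),
      ← Real.rpow_natCast Z, ← Real.rpow_mul hZ0.le, ← Real.rpow_mul hZ0.le, mul_comm δ]
    gcongr
    simpa using Real.rpow_le_rpow_of_exponent_le hT1 hδ1
  have h8 : (Z ^ δ) ^ 6 ≤ Z ^ ε := by
    rw [← Real.rpow_natCast, ← Real.rpow_mul hZ0.le]
    refine Real.rpow_le_rpow_of_exponent_le hZ ?_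
    push_cast
    linarith
  have hZε : 1 ≤ Z ^ ε := Real.one_le_rpow hZ hε.le
  have hL0 : 0 < L₀ * K ^ 2 := by positivity
  generalize L₀ * K ^ 2 = L at h1 hL0 ⊢
  have hc : 1 ≤ Z ^ δ * T := one_le_mul_of_one_le_of_one_le hZδ hT1
  have hE : K * (Z ^ δ * T * L) + (Z ^ δ * T * L) ^ 2 ≤ (Z ^ δ * T) ^ 2 * (K * L + L ^ 2) := by
    have : Z ^ δ * T ≤ (Z ^ δ * T) ^ 2 := le_self_pow₀ hc two_ne_zero
    have := mul_le_mul_of_nonneg_right this (by positivity : 0 ≤ K * L)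
    nlinarith
  have g1 : C₁ * (Z ^ 4 * T) ^ δ * (K * (Z ^ δ * T * L) + (Z ^ δ * T * L) ^ 2) ≤
      C₁ * Z ^ ε * T ^ 6 * (K * L + L ^ 2 + Z⁻¹) := by
    calc _ ≤ C₁ * ((Z ^ δ) ^ 4 * T) * ((Z ^ δ * T) ^ 2 * (K * L + L ^ 2)) := by gcongr
      _ = C₁ * (Z ^ δ) ^ 6 * T ^ 3 * (K * L + L ^ 2) := by ring
      _ ≤ _ := by
          have i1 : K * L + L ^ 2 ≤ K * L + L ^ 2 + Z⁻¹ := le_add_of_nonneg_right (by positivity)
          have i2 : T ^ 3 ≤ T ^ 6 := pow_le_pow_right₀ hT1 (by norm_num)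
          exact mul_le_mul (mul_le_mul (mul_le_mul_of_nonneg_left h8 hC₁) i2 (by positivity)
            (by positivity)) i1 (by positivity) (by positivity)
  have g2 : C₃ * T ^ 6 * Z⁻¹ ≤ C₃ * Z ^ ε * T ^ 6 * (K * L + L ^ 2 + Z⁻¹) := by
    calc _ = C₃ * 1 * T ^ 6 * Z⁻¹ := by ring
      _ ≤ _ := by
          gcongr
          exact le_add_of_nonneg_left (by positivity)
  have key : ∀ x y : ℂ, ‖x‖ ^ 2 ≤ 2 * ‖x - y‖ ^ 2 + 2 * ‖y‖ ^ 2 := by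
    intro x y
    have i1 : ‖x‖ ≤ ‖x - y‖ + ‖y‖ := by simpa using norm_add_le (x - y) y
    have i2 := pow_le_pow_left₀ (norm_nonneg _) i1 2
    nlinarith [sq_nonneg (‖x - y‖ - ‖y‖)]
  refine (Finset.sum_le_sum fun k _ => key _
    (∑ l ∈ B, b l * (φ l * σ l k) * WR r a t (sz l / (L₀ * nk k ^ 2)))).trans ?_
  rw [Finset.sum_add_distrib, ← Finset.mul_sum, ← Finset.mul_sum]
  linarith

/-- amplitude times dual energy -/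
theorem Dual.core (h : Dual sz b σ nk Row) (r : ℕ) {a ε B₀ : ℝ} (ha : 0 < a) (hε : 0 < ε)
    (hB₀ : 0 < B₀) : ∃ C : ℝ, 0 ≤ C ∧ ∀ (φ : ι → ℂ) (Z K Y B t : ℝ) (A : Finset κ) (T : κ → ℝ),
      1 ≤ K → K ≤ Z → Z⁻¹ ≤ Y → Y ≤ Z → B₀ ≤ B → B ≤ B₀ * Z → (∀ l, ‖φ l‖ ≤ 1) →
      (∀ k ∈ A, Row k ∧ nk k ≤ K) →
      (∀ k ∈ A, T k ≤ (Y / (B * nk k)) ^ 2 *
        ‖DuS r sz b (fun l => φ l * σ l k) a t ((nk k * B) ^ 2 / Y)‖ ^ 2) →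
      ∑ k ∈ A, T k ≤ C * Z ^ ε * (1 + |t|) ^ (24 * r) * (Y * K + (B * K) ^ 2) := by
  obtain ⟨C, hC, hD⟩ := h.sd r ha (ε := ε / 4) (by positivity)
  obtain ⟨Cl, hCl, hl⟩ := one_add_log_rpow_le 1 (ε := ε / 4) (by positivity)
  obtain ⟨Q, hQ1, hQ⟩ : ∃ Q : ℝ, 1 ≤ Q ∧ B₀ ^ 2 ≤ Q := ⟨max 1 (B₀ ^ 2), le_max_left _ _, le_max_right _ _⟩
  refine ⟨2 * Cl * (4 * C * Q ^ (ε / 4) * (1 + (B₀ ^ 4)⁻¹)), by positivity, ?_⟩
  intro φ Z K Y B t A T hK hKZ hYZ' hYZ hB1 hB2 hφ hA hT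
  have hZ : 1 ≤ Z := hK.trans hKZ
  have hZ0 : 0 < Z := by linarith
  have hY : 0 < Y := (inv_pos.2 hZ0).trans_le hYZ'
  have hB : 0 < B := hB₀.trans_le hB1
  obtain ⟨Z', hZ'⟩ : ∃ Z', Z' = Q * Z ^ 3 := ⟨_, rfl⟩
  have hZ2 : Z ^ 2 ≤ Z' := by
    rw [hZ']
    exact (pow_le_pow_right₀ hZ (by norm_num)).trans (le_mul_of_one_le_left (by positivity) hQ1)
  have hZ1 : Z ≤ Z' := le_trans (le_self_pow₀ hZ two_ne_zero) hZ2
  have h11 : 0 < Z' := by linarith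
  have hL : B ^ 2 / Y ≤ Z' := by
    have h1 : Y⁻¹ ≤ Z := inv_le_of_inv_le₀ hZ0 hYZ'
    calc B ^ 2 / Y = B ^ 2 * Y⁻¹ := div_eq_mul_inv _ _
      _ ≤ (B₀ * Z) ^ 2 * Z := by gcongr
      _ = B₀ ^ 2 * Z ^ 3 := by ring
      _ ≤ Z' := by rw [hZ']; gcongr
  obtain ⟨W, hW⟩ : ∃ W, W = Y * K + (B * K) ^ 2 := ⟨_, rfl⟩
  have hW0 : 0 ≤ W := by rw [hW]; positivity
  rw [← hW]
  have key := sum_dyadic A nk T hK
    (B := 4 * C * Z' ^ (ε / 4) * (1 + (B₀ ^ 4)⁻¹) * (1 + |t|) ^ (24 * r) * W) (by positivity)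
    (fun k hk => ⟨h.one_le k (hA k hk).1, (hA k hk).2⟩) (fun K' A' hK' hK'K hA' hA'' => by
      have h1 := hD φ Z' K' (B ^ 2 / Y) t A' hK' (hK'K.trans (hKZ.trans hZ1)) (by positivity) hL hφ
        fun k hk => ⟨(hA k (hA' hk)).1, (hA'' k hk).2⟩
      have h2 : ∀ k ∈ A', T k ≤ 4 * (Y / (B * K')) ^ 2 *
          ‖DuS r sz b (fun l => φ l * σ l k) a t (B ^ 2 / Y * nk k ^ 2)‖ ^ 2 := fun k hk => by
        refine (hT k (hA' hk)).trans ?_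
        rw [show (nk k * B) ^ 2 / Y = B ^ 2 / Y * nk k ^ 2 by ring]
        refine mul_le_mul_of_nonneg_right ?_ (sq_nonneg _)
        have h3 := h.one_le k (hA k (hA' hk)).1
        have h4 : Y / (B * nk k) ≤ 2 * (Y / (B * K')) := by
          have h5 := (hA'' k hk).1
          calc Y / (B * nk k) = 2 * (Y / (B * (2 * nk k))) := by field_simp
            _ ≤ _ := by gcongr
        calc (Y / (B * nk k)) ^ 2 ≤ (2 * (Y / (B * K'))) ^ 2 := by gcongr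
          _ = _ := by ring
      refine (Finset.sum_le_sum h2).trans ?_
      rw [← Finset.mul_sum]
      refine (mul_le_mul_of_nonneg_left h1 (by positivity)).trans ?_
      have hK0 : 0 < K' := by linarith
      have h6 : (Y / (B * K')) ^ 2 * (K' * (B ^ 2 / Y * K' ^ 2) + (B ^ 2 / Y * K' ^ 2) ^ 2) ≤ W := by
        calc _ = Y * K' + (B * K') ^ 2 := by field_simp
          _ ≤ W := by rw [hW]; gcongr
      have h8 : (Y / (B * K')) ^ 2 * Z'⁻¹ ≤ (B₀ ^ 4)⁻¹ * W := by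
        have h9 : Y / (B * K') ≤ Z / B₀ := by
          gcongr
          exact hB1.trans (le_mul_of_one_le_right hB.le hK')
        have h10 : B₀ ^ 2 ≤ W := by
          rw [hW]
          refine le_add_of_nonneg_of_le (by positivity) ?_
          gcongr
          exact hB1.trans (le_mul_of_one_le_right hB.le hK)
        calc _ ≤ (Z / B₀) ^ 2 * (Z ^ 2)⁻¹ := by gcongr
          _ = (B₀ ^ 4)⁻¹ * B₀ ^ 2 := by field_simp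
          _ ≤ _ := by gcongr
      calc 4 * (Y / (B * K')) ^ 2 * (C * Z' ^ (ε / 4) * (1 + |t|) ^ (24 * r) *
            (K' * (B ^ 2 / Y * K' ^ 2) + (B ^ 2 / Y * K' ^ 2) ^ 2 + Z'⁻¹))
          = 4 * C * Z' ^ (ε / 4) * (1 + |t|) ^ (24 * r) *
            ((Y / (B * K')) ^ 2 * (K' * (B ^ 2 / Y * K' ^ 2) + (B ^ 2 / Y * K' ^ 2) ^ 2) +
              (Y / (B * K')) ^ 2 * Z'⁻¹) := by ring
        _ ≤ 4 * C * Z' ^ (ε / 4) * (1 + |t|) ^ (24 * r) * (W + (B₀ ^ 4)⁻¹ * W) := by gcongr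
        _ = _ := by ring)
  refine key.trans ?_
  have h12 : 1 + Real.log K ≤ Cl * Z ^ (ε / 4) := by
    have := hl Z hZ
    rw [Real.rpow_one] at this
    linarith [Real.log_le_log (by linarith) hKZ]
  have h13 : Z' ^ (ε / 4) * Z ^ (ε / 4) = Q ^ (ε / 4) * Z ^ ε := by
    rw [hZ', Real.mul_rpow (by positivity) (by positivity), ← Real.rpow_natCast Z 3,
      ← Real.rpow_mul hZ0.le, mul_assoc, ← Real.rpow_add hZ0]
    congr 2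
    push_cast
    ring
  calc 2 * (1 + Real.log K) *
        (4 * C * Z' ^ (ε / 4) * (1 + (B₀ ^ 4)⁻¹) * (1 + |t|) ^ (24 * r) * W)
      ≤ 2 * (Cl * Z ^ (ε / 4)) *
        (4 * C * Z' ^ (ε / 4) * (1 + (B₀ ^ 4)⁻¹) * (1 + |t|) ^ (24 * r) * W) := by gcongr
    _ = _ := by
        linear_combination (8 * Cl * C * (1 + (B₀ ^ 4)⁻¹) * (1 + |t|) ^ (24 * r) * W) * h13

end Crest.Agent.R27.F
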