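import Crest.Agent.R27.F.Defs

/-!
Row 27, block F: reflection of one row and the core estimate for squarefree rows.
-/

set_option autoImplicit false
set_option linter.unusedSectionVars false

namespace Crest.Agent.R27.F

open Crest.Agent.R27.Ab
open Crest.Agent.R17 (LN LNt EntBdd gth SS DD Adm)
open scoped Classical ComplexConjugate

variable {R : Type} [CommRing R] [IsDomain R] [IsPrincipalIdealRing R] [Abs R]

section Cross
variable {k e : R} {χ : R → ℂ}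

theorem tw_chi (hk : k ≠ 0) (hχ : Tw e χ) : Tw (k * e) fun y => conj (sx y k ^ 1) * χ y :=
  (tw_sx hk one_ne_zero).conj.mul₂ hχ

theorem primal_eq (hks : Squarefree k) (he : e ≠ 0) (hχ : Tw e χ) (hke : IsCoprime k e) :
    ∃ κ₁ : ℂ, ‖κ₁‖ = √(nm k) ∧ ∀ n, Fp (k * e) (fun y => conj (sx y k ^ 1) * χ y) n =
      κ₁ * (Fp e χ n * conj (sx n k)) := by
  have hk := hks.ne_zero
  refine ⟨sx e k * conj (χ k) * conj (sx (-1) k) * gs 1 1 k, ?_, fun n => ?_⟩
  · rw [norm_mul, norm_mul, norm_mul, Complex.norm_conj, Complex.norm_conj, norm_sx hk hke.symm,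
      hχ.norm_eq hke, norm_sx hk isCoprime_one_left.neg_left, norm_gs hks (by norm_num)]
    ring
  · have hg : gs 1 (-n) k = conj (sx (-1) k) * conj (sx n k) * gs 1 1 k := by
      rw [gs_sqfree hks (by norm_num) (-n), sx_neg_left, map_mul, pow_one]
    simp only [Fp, map_mul, Complex.conj_conj]
    rw [FT_tw_mul (tw_sx hk one_ne_zero) hχ.conj hk he hke]
    change _ * (gs 1 (-n) k * _) = _
    rw [hg]
    ring

theorem dual_eq (hks : Squarefree k) (he : e ≠ 0) (hχ : Tw e χ) (hke : IsCoprime k e) :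
    ∃ κ₂ : ℂ, ‖κ₂‖ = √(nm k) ∧ ∀ l, Fd (k * e) (fun y => conj (sx y k ^ 1) * χ y) l =
      κ₂ * (Fd e χ l * sx l k ^ 3) := by
  have hk := hks.ne_zero
  have h1 := tw_sx hk three_ne_zero
  have h3 := hχ.mul' (tw_cb he)
  refine ⟨sx e k ^ 3 * (χ k * cb k e ^ 2) * gs 3 1 k, ?_, fun l => ?_⟩
  · rw [norm_mul, norm_mul, h1.norm_eq hke.symm, h3.norm_eq hke, norm_gs hks (by norm_num)]
    ring
  · have hf : (fun y => conj (sx y k ^ 1) * χ y * cb y (k * e) ^ 2) =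
        fun y => sx y k ^ 3 * (χ y * cb y e ^ 2) := by
      funext y
      rw [cb_mul_right, pow_one, conj_sx, ← sx_sq y k, ← sx_pow_add_six y k three_ne_zero]
      ring
    have hg : gs 3 l k = sx l k ^ 3 * gs 3 1 k := by
      rw [gs_sqfree hks (by norm_num) l, ← map_pow, conj_sx_cube]
    rw [Fd, hf, FT_tw_mul h1 h3 hk he hke]
    change _ * (gs 3 l k * Fd e χ l) = _
    rw [hg]
    ring

end Cross

/-- the functional equation of `StTheta` for one class and one modulus -/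
def FE (r : ℕ) (x : Cl R) {I : Type} (ν : I → ℝ) (ε : I → Rˣ) (c : R) (b : I × Pr R → ℂ) : Prop :=
  ∀ Φ Φ' : R → ℂ, Per c Φ → Per c Φ' →
    (∀ a, ¬ IsCoprime a c → Φ a = 0) → (∀ a, ¬ IsCoprime a c → Φ' a = 0) →
    (∀ u a, U1 u → Φ (u * a) = Φ a) → (∀ a d, c ∣ a * d - 1 → Φ' d = Φ a * cb a c) →
    ∃ (e : ℂ) (Λ Λ' : ℂ → ℂ), ‖e‖ = 1 ∧ EntBdd Λ ∧ EntBdd Λ' ∧
      (∀ s : ℂ, 2 < s.re → Λ s = gth s ^ r * ∑' n : Pr R,
        if cls (n : R) = x then tau0 (n : R) * al (n : R) * FT c Φ (-n) * (nm (n : R) : ℂ) ^ (-s) else 0) ∧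
      (∀ s : ℂ, 2 < s.re → Λ' s = gth s ^ r * ∑' p : I × Pr R,
        b p * FT c Φ' (ε p.1 * p.2) * ((ν p.1 * nm (p.2 : R) : ℝ) : ℂ) ^ (-s)) ∧
      ∀ s : ℂ, Λ s = e * (nm c : ℂ) ^ (1 - 2 * s) * Λ' (1 - s)

variable {r : ℕ} {x : Cl R} {I : Type} {ν : I → ℝ} {ε : I → Rˣ}

theorem FE.refl {c : R} {b : I × Pr R → ℂ} (h : FE r x ν ε c b) (hc : c ≠ 0)
    (hb : Adm b (fun p => ν p.1 * nm (p.2 : R)) 3) {χ : R → ℂ} (hχ : Tw c χ) {a Y : ℝ} (ha : 0 < a)
    (hY : 0 < Y) (t : ℝ) : ‖Th x (Fp c χ) a Y t‖ = Y / nm c *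
      ‖DuS r (fun p => ν p.1 * nm (p.2 : R)) b (fun p => Fd c χ (ε p.1 * p.2)) a t (nm c ^ 2 / Y)‖ := by
  have h3 := hχ.mul' (tw_cb hc)
  have hN := nm_pos hc
  obtain ⟨E, Λ, Λ', hE, hΛ, -, hD, hD', hFE⟩ := h (fun y => conj (χ y)) (fun y => χ y * cb y c ^ 2)
    hχ.conj.per h3.per (fun _ => hχ.conj.zero) (fun _ => h3.zero)
    (fun u a hu => by rw [hχ.mul, hχ.unit u hu, one_mul]) fun a d had => by
      obtain ⟨q, hq⟩ := had
      have h1 : IsCoprime a c := ⟨d, -q, by linear_combination hq⟩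
      have h2 : IsCoprime d c := ⟨a, -q, by linear_combination hq⟩
      have h4 : χ a * χ d = 1 := by rw [← hχ.mul, hχ.per _ 1 ⟨q, hq⟩, hχ.one]
      have h5 : cb a c * cb d c = 1 := by rw [← cb_mul_left, cb_congr ⟨q, hq⟩, cb_one_left hc]
      have h6 : cb d c ^ 3 = 1 := by rw [cb_pow_three, if_pos ⟨hc, h2⟩]
      have h7 := hχ.mul_conj h1
      linear_combination (-(χ d * cb d c ^ 2)) * h7 + conj (χ a) * cb d c ^ 2 * h4 -
        conj (χ a) * cb d c ^ 2 * h5 + conj (χ a) * cb a c * h6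
  have key := reflR (adm_Th x (Fp_bdd hc hχ))
    (hb.of_le (c' := fun p => b p * Fd c χ (ε p.1 * p.2)) (M := nm c) fun p => by
      rw [norm_mul, mul_comm]
      exact mul_le_mul_of_nonneg_right (Fd_bdd hc hχ _) (norm_nonneg _))
    r ha hY hN one_pos t (γ := fun s => gth s ^ r) (fun s => by simp) hΛ
    (fun s hs => by
      rw [hD s hs, DD]
      congr 1
      refine tsum_congr fun n => ?_
      simp only [tc, Fp]
      split_ifs <;> simp)
    (fun s hs => hD' s hs) hFE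
  rw [Th, key, mul_one, norm_mul, norm_mul, hE, one_mul, Complex.norm_real,
    Real.norm_of_nonneg (by positivity)]
  rfl

theorem FE.row {k e : R} {b : I × Pr R → ℂ} (h : FE r x ν ε (k * e) b) (hks : Squarefree k)
    (he : e ≠ 0) (hke : IsCoprime k e) (hb : Adm b (fun p => ν p.1 * nm (p.2 : R)) 3) {χ : R → ℂ}
    (hχ : Tw e χ) {a Y : ℝ} (ha : 0 < a) (hY : 0 < Y) (t : ℝ) :
    ‖Th x (fun n => Fp e χ n * conj (sx n k)) a Y t‖ = nm e * (Y / (nm e * nm k) *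
      ‖DuS r (fun p => ν p.1 * nm (p.2 : R)) b
        (fun p => Fd e χ (ε p.1 * p.2) / nm e * sx (ε p.1 * p.2 : R) k ^ 3) a t
        ((nm k * nm e) ^ 2 / Y)‖) := by
  have hk := hks.ne_zero
  have hN := nm_pos he
  have hN0 : (nm e : ℂ) ≠ 0 := Complex.ofReal_ne_zero.2 hN.ne'
  obtain ⟨κ₁, n₁, h₁⟩ := primal_eq hks he hχ hke
  obtain ⟨κ₂, n₂, h₂⟩ := dual_eq hks he hχ hke
  have key := h.refl (mul_ne_zero hk he) hb (tw_chi hk hχ) ha hY t
  have e₂ : DuS r (fun p => ν p.1 * nm (p.2 : R)) b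
      (fun p => Fd (k * e) (fun y => conj (sx y k ^ 1) * χ y) (ε p.1 * p.2)) a t (nm (k * e) ^ 2 / Y) =
      κ₂ * nm e * DuS r (fun p => ν p.1 * nm (p.2 : R)) b
        (fun p => Fd e χ (ε p.1 * p.2) / nm e * sx (ε p.1 * p.2 : R) k ^ 3) a t
        ((nm k * nm e) ^ 2 / Y) := by
    rw [DuS, DuS, ← tsum_mul_left, nm_mul]
    refine tsum_congr fun p => ?_
    rw [h₂]
    field_simp
  rw [funext h₁, Th_const_mul, e₂, norm_mul, norm_mul, norm_mul, n₁, n₂, Complex.norm_real,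
    Real.norm_of_nonneg hN.le, nm_mul] at key
  refine mul_left_cancel₀ (Real.sqrt_pos.2 (nm_pos hk)).ne' (key.trans ?_)
  ring

theorem s5_of {J : Type} [Finite J] {κ : R → J} {b : J → I × Pr R → ℂ}
    (hD : ∀ j, Dual (fun p : I × Pr R => ν p.1 * nm (p.2 : R)) (b j)
      (fun p k => sx (ε p.1 * p.2 : R) k ^ 3) nm fun k : R => Prim k ∧ Squarefree k)
    (hF : ∀ c, Prim c → FE r x ν ε c (b (κ c))) : S5 x (24 * r) := by
  intro a δ ha hδ
  have := Fintype.ofFinite J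
  choose C hC H using fun j => (hD j).core r ha hδ one_pos
  refine ⟨∑ j, C j, Finset.sum_nonneg fun j _ => hC j,
    fun e χ Z K Y t A he hχ heZ hK hKZ hY hYZ hA => ?_⟩
  have he0 := p_ne he
  have hN := nm_pos he0
  have hY0 : 0 < Y := (inv_pos.2 (by linarith)).trans_le hY
  rw [← Finset.sum_fiberwise A (fun k => κ (k * e)), Finset.sum_mul, Finset.sum_mul,
    Finset.sum_mul]
  refine Finset.sum_le_sum fun j _ => ?_
  have key := H j (fun p => Fd e χ (ε p.1 * p.2) / nm e) Z K Y (nm e) t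
    (A.filter fun k => κ (k * e) = j)
    (fun k => ‖Th x (fun n => Fp e χ n * conj (sx n k)) a Y t‖ ^ 2 / nm e ^ 2) hK hKZ hY hYZ
    (one_le_nm he0) (by rwa [one_mul])
    (fun p => by
      rw [norm_div, Complex.norm_real, Real.norm_of_nonneg hN.le, div_le_one hN]
      exact Fd_bdd he0 hχ _)
    (fun k hk => by
      obtain ⟨⟨h1, h2, h3⟩, -⟩ := hA k (Finset.mem_filter.1 hk).1
      exact ⟨⟨h1, h2⟩, h3⟩)
    fun k hk => by
      obtain ⟨hk', hj⟩ := Finset.mem_filter.1 hk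
      obtain ⟨⟨h1, h2, -⟩, h4⟩ := hA k hk'
      have h5 := hF _ (p_mul h1 he)
      rw [hj] at h5
      rw [h5.row h2 he0 h4 (hD _).adm hχ ha hY0 t, mul_pow,
        mul_div_cancel_left₀ _ (by positivity), mul_pow]
  rw [← Finset.sum_div, div_le_iff₀ (by positivity)] at key
  exact key.trans (le_of_eq (by ring))

end Crest.Agent.R27.F
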