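import Crest.Agent.R27.F.Defs

/-!
Row 27, block F: the energy of the dual polynomials, from the quadratic large sieve.
-/

set_option autoImplicit false
set_option linter.unusedSectionVars false

namespace Crest.Agent.R27.F

open Crest.Agent.R27.Ab
open Crest.Agent.R17 (Adm)
open Crest.Agent.R17.F (sq_sum_le_card sq_sum_le_weight)
open scoped Classical ComplexConjugate

variable {R : Type} [CommRing R] [IsDomain R] [IsPrincipalIdealRing R] [Abs R]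

theorem de_pull {ι : Type*} (T : Finset ι) (y k : R) (m : ι → R) (x : ι → ℂ) :
    ‖∑ j ∈ T, x j * sx (y * m j) k ^ 3‖ ^ 2 ≤ ‖∑ j ∈ T, x j * sx (m j) k ^ 3‖ ^ 2 := by
  have e : ∑ j ∈ T, x j * sx (y * m j) k ^ 3 = sx y k ^ 3 * ∑ j ∈ T, x j * sx (m j) k ^ 3 := by
    rw [Finset.mul_sum]
    exact Finset.sum_congr rfl fun j _ => by rw [sx_mul_left]; ring
  rw [e, norm_mul, norm_pow]
  exact pow_le_pow_left₀ (by positivity) (mul_le_of_le_one_left (norm_nonneg _)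
    (pow_le_one₀ (norm_nonneg _) (norm_sx_le y k))) 2

/-- the quadratic large sieve for columns `g² m` -/
theorem sieve_sq (hE : StE R) {ε : ℝ} (hε : 0 < ε) : ∃ C : ℝ, 0 ≤ C ∧
    ∀ {ι : Type} (T : Finset ι) (g m : ι → R) (x : ι → ℂ) (Z K M μ : ℝ) (A : Finset R),
      1 ≤ K → K ≤ Z → M ≤ Z → (∀ k ∈ A, Sq K k) →
      (∀ j ∈ T, Prim (g j) ∧ Prim (m j) ∧ Squarefree (m j) ∧ nm (g j) ^ 2 * nm (m j) ≤ M) →
      (∀ y z : R, ((T.filter fun j => g j = y ∧ m j = z).card : ℝ) ≤ μ) →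
      ∑ k ∈ A, ‖∑ j ∈ T, x j * sx (g j ^ 2 * m j) k ^ 3‖ ^ 2 ≤
        C * Z ^ ε * μ * ((K + M) * ∑ j ∈ T, nm (g j) * ‖x j‖ ^ 2) := by
  obtain ⟨C₀, h₀⟩ := hE (ε / 4) (by positivity)
  obtain ⟨C₁, hC₁, hC₀⟩ : ∃ C₁ : ℝ, 0 ≤ C₁ ∧ C₀ ≤ C₁ := ⟨max C₀ 0, le_max_right _ _, le_max_left _ _⟩
  obtain ⟨C₂, hC₂, h₂⟩ := p_inv (R := R) (half_pos hε)
  refine ⟨C₂ * C₁, by positivity, fun T g m x Z K M μ A hK hKZ hMZ hA hT hμ => ?_⟩
  have hZ : 1 ≤ Z := hK.trans hKZ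
  have hμ0 : 0 ≤ μ := (Nat.cast_nonneg _).trans (hμ 0 0)
  have hS : ∀ y ∈ T.image g, Prim y ∧ 1 ≤ nm y ∧ nm y ^ 2 ≤ M := by
    intro y hy
    obtain ⟨j, hj, rfl⟩ := Finset.mem_image.1 hy
    obtain ⟨a1, a2, -, a4⟩ := hT j hj
    exact ⟨a1, one_le_nm (p_ne a1),
      (le_mul_of_one_le_right (by positivity) (one_le_nm (p_ne a2))).trans a4⟩
  have hlog : ∑ y ∈ T.image g, (nm y)⁻¹ ≤ C₂ * Z ^ (ε / 2) :=
    h₂ Z _ (by linarith) fun y hy => ⟨(hS y hy).1, by nlinarith [hS y hy]⟩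
  have hy : ∀ y ∈ T.image g,
      nm y * ∑ k ∈ A, ‖∑ j ∈ T with g j = y, x j * sx (g j ^ 2 * m j) k ^ 3‖ ^ 2 ≤
        C₁ * Z ^ (ε / 2) * μ * (K + M) * ∑ j ∈ T with g j = y, nm (g j) * ‖x j‖ ^ 2 := by
    intro y hy
    obtain ⟨-, b1, b2⟩ := hS y hy
    have hM : 1 ≤ M := (one_le_pow₀ b1).trans b2
    set T' := T.filter fun j => g j = y with hT'
    have hmap : ∀ j ∈ T', m j ∈ T'.image m := fun j hj => Finset.mem_image_of_mem m hj
    have a1 := h₀ K M A (T'.image m) (fun z => ∑ j ∈ T' with m j = z, x j) hK hM hA fun z hz => by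
      obtain ⟨j, hj, rfl⟩ := Finset.mem_image.1 hz
      obtain ⟨c1, rfl⟩ := Finset.mem_filter.1 hj
      exact ⟨(hT j c1).2.1, (hT j c1).2.2.1,
        (le_mul_of_one_le_left (nm_nonneg _) (one_le_pow₀ b1)).trans (hT j c1).2.2.2⟩
    have a2 : ∑ k ∈ A, ‖∑ j ∈ T', x j * sx (g j ^ 2 * m j) k ^ 3‖ ^ 2 ≤
        ∑ k ∈ A, ‖∑ z ∈ T'.image m, (∑ j ∈ T' with m j = z, x j) * sx z k ^ 3‖ ^ 2 := by
      refine Finset.sum_le_sum fun k _ => ?_
      rw [Finset.sum_congr rfl fun j hj => by rw [(Finset.mem_filter.1 hj).2]]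
      refine (de_pull T' (y ^ 2) k m x).trans_eq ?_
      rw [← Finset.sum_fiberwise_of_maps_to hmap]
      congr 2
      refine Finset.sum_congr rfl fun z _ => ?_
      rw [Finset.sum_mul]
      exact Finset.sum_congr rfl fun j hj => by rw [(Finset.mem_filter.1 hj).2]
    have a3 : ∑ z ∈ T'.image m, ‖∑ j ∈ T' with m j = z, x j‖ ^ 2 ≤ μ * ∑ j ∈ T', ‖x j‖ ^ 2 := by
      rw [← Finset.sum_fiberwise_of_maps_to hmap fun j => ‖x j‖ ^ 2, Finset.mul_sum]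
      refine Finset.sum_le_sum fun z _ => (sq_sum_le_card _ _).trans ?_
      refine mul_le_mul_of_nonneg_right ?_ (by positivity)
      rw [hT', Finset.filter_filter]
      exact hμ y z
    have a4 : (K * M) ^ (ε / 4) ≤ Z ^ (ε / 2) := by
      calc (K * M) ^ (ε / 4) ≤ (Z * Z) ^ (ε / 4) := by gcongr
        _ = Z ^ (ε / 2) := by
          rw [Real.mul_rpow (by positivity) (by positivity), ← Real.rpow_add (by positivity)]
          congr 1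
          ring
    have a6 : ∑ j ∈ T', nm (g j) * ‖x j‖ ^ 2 = nm y * ∑ j ∈ T', ‖x j‖ ^ 2 := by
      rw [Finset.mul_sum]
      exact Finset.sum_congr rfl fun j hj => by rw [(Finset.mem_filter.1 hj).2]
    rw [a6]
    calc _ ≤ nm y * (C₁ * Z ^ (ε / 2) * (K + M) * (μ * ∑ j ∈ T', ‖x j‖ ^ 2)) := by
          refine mul_le_mul_of_nonneg_left ((a2.trans a1).trans ?_) (nm_nonneg y)
          gcongr
      _ = _ := by ring
  have hmap : ∀ j ∈ T, g j ∈ T.image g := fun j hj => Finset.mem_image_of_mem g hj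
  calc ∑ k ∈ A, ‖∑ j ∈ T, x j * sx (g j ^ 2 * m j) k ^ 3‖ ^ 2
      ≤ ∑ k ∈ A, C₂ * Z ^ (ε / 2) * ∑ y ∈ T.image g,
          nm y * ‖∑ j ∈ T with g j = y, x j * sx (g j ^ 2 * m j) k ^ 3‖ ^ 2 := by
        refine Finset.sum_le_sum fun k _ => ?_
        rw [← Finset.sum_fiberwise_of_maps_to hmap]
        refine (sq_sum_le_weight _ nm _ fun y hy => one_pos.trans_le (hS y hy).2.1).trans ?_
        exact mul_le_mul_of_nonneg_right hlog
          (Finset.sum_nonneg fun y _ => mul_nonneg (nm_nonneg y) (sq_nonneg _))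
    _ ≤ C₂ * Z ^ (ε / 2) * ∑ y ∈ T.image g, C₁ * Z ^ (ε / 2) * μ * (K + M) *
          ∑ j ∈ T with g j = y, nm (g j) * ‖x j‖ ^ 2 := by
        rw [← Finset.mul_sum, Finset.sum_comm]
        refine mul_le_mul_of_nonneg_left (Finset.sum_le_sum fun y h => ?_) (by positivity)
        rw [← Finset.mul_sum]
        exact hy y h
    _ = _ := by
        rw [← Finset.mul_sum, Finset.sum_fiberwise_of_maps_to hmap]
        have e : Z ^ ε = Z ^ (ε / 2) * Z ^ (ε / 2) := by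
          rw [← Real.rpow_add (by positivity), add_halves]
        rw [e]
        ring

/-- `l = w⁴ c d³ e⁶ = (w² d e³)² (c d)` -/
theorem exists_quad {l : R} (h : tau0 l ≠ 0) : ∃ w c d e : R, Prim w ∧ Prim c ∧ Prim d ∧ Prim e ∧
    Squarefree (c * d) ∧ l = (w ^ 2 * d * e ^ 3) ^ 2 * (c * d) ∧
    nm (w ^ 2 * d * e ^ 3) * ‖tau0 l‖ ^ 2 = nm l * ((nm w)⁻¹ * (nm c)⁻¹ * (nm d)⁻¹ * (nm e)⁻¹) := by
  obtain ⟨c₁, d₁, hc₁, hd₁, hs, h1, h2⟩ := p_tau h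
  obtain ⟨d₂, e, hd₂, he, hs₂, rfl⟩ := p_sq hd₁
  obtain ⟨w, c, d, hw, hc, hd, rfl, rfl, hcd⟩ := p_gcd hc₁ hd₂
  refine ⟨w, c, d, e, hw, hc, hd, he,
    squarefree_mul_iff.2 ⟨hcd.isRelPrime, hs.of_mul_right, hs₂.of_mul_right⟩, by rw [h1]; ring, ?_⟩
  have := nm_pos (p_ne hw)
  have := nm_pos (p_ne hc)
  have := nm_pos (p_ne hd)
  have := nm_pos (p_ne he)
  rw [h2, h1]
  simp only [nm_mul, nm_pow]
  field_simp

section
variable {I : Type} {ν : I → ℝ} {C : ℝ}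

theorem de_fin (hC : 0 < C) (h1 : ∀ i, 1 / C ≤ ν i) (h2 : ∀ d : ℝ, 0 < d → Summable fun i => ν i ^ (-d))
    {δ : ℝ} (hδ : 0 < δ) : ∃ C' : ℝ, 0 ≤ C' ∧ ∀ (L : ℝ) (S : Finset I), 0 ≤ L → (∀ i ∈ S, ν i ≤ L) →
      (S.card : ℝ) ≤ C' * L ^ δ := by
  have h0 : ∀ i, 0 < ν i := fun i => (one_div_pos.2 hC).trans_le (h1 i)
  have h3 : ∀ i, 0 ≤ ν i ^ (-δ) := fun i => Real.rpow_nonneg (h0 i).le _
  refine ⟨∑' i, ν i ^ (-δ), tsum_nonneg h3, fun L S hL hS => ?_⟩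
  calc (S.card : ℝ) = ∑ i ∈ S, ν i ^ (-δ) * ν i ^ δ := by
        rw [Finset.sum_congr rfl fun i _ => by
          rw [← Real.rpow_add (h0 i), neg_add_cancel, Real.rpow_zero]]
        simp
    _ ≤ ∑ i ∈ S, ν i ^ (-δ) * L ^ δ := Finset.sum_le_sum fun i hi =>
        mul_le_mul_of_nonneg_left (Real.rpow_le_rpow (h0 i).le (hS i hi) hδ.le) (h3 i)
    _ ≤ _ := by
        rw [← Finset.sum_mul]
        exact mul_le_mul_of_nonneg_right ((h2 δ hδ).sum_le_tsum S fun i _ => h3 i) (by positivity)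

/-- the energy with the units removed -/
theorem de_en (hE : StE R) (hC : 0 < C) (h1 : ∀ i, 1 / C ≤ ν i)
    (h2 : ∀ d : ℝ, 0 < d → Summable fun i => ν i ^ (-d)) {δ : ℝ} (hδ : 0 < δ) :
    ∃ C' : ℝ, 0 ≤ C' ∧ ∀ (x : I × Pr R → ℂ) (Z K L : ℝ) (A : Finset R) (B : Finset (I × Pr R)),
      1 ≤ K → K ≤ Z → 0 ≤ L → L ≤ Z → (∀ p, ‖x p‖ ≤ C * √(ν p.1) * ‖tau0 (p.2 : R)‖) →
      (∀ k ∈ A, Sq K k) → (∀ p ∈ B, ν p.1 * nm (p.2 : R) ≤ L) →
      ∑ k ∈ A, ‖∑ p ∈ B, x p * sx (p.2 : R) k ^ 3‖ ^ 2 ≤ C' * Z ^ δ * (K * L + L ^ 2) := by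
  have hδ' : 0 < δ / 7 := by positivity
  obtain ⟨C₁, hC₁, H₁⟩ := sieve_sq hE hδ'
  obtain ⟨C₂, hC₂, H₂⟩ := de_fin hC h1 h2 hδ'
  obtain ⟨C₃, hC₃, H₃⟩ := p_inv (R := R) hδ'
  obtain ⟨Q, hQ1, hQ⟩ : ∃ Q : ℝ, 1 ≤ Q ∧ C ≤ Q := ⟨max 1 C, le_max_left _ _, le_max_right _ _⟩
  refine ⟨C₁ * C₂ ^ 2 * C₃ ^ 4 * C ^ 2 * Q * Q ^ δ, by positivity,
    fun x Z K L A B hK hKZ hL hLZ hx hA hB => ?_⟩
  have hZ : 1 ≤ Z := hK.trans hKZ
  have h0 : ∀ i, 0 < ν i := fun i => (one_div_pos.2 hC).trans_le (h1 i)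
  choose! w c d e hq using fun l : R => exists_quad (l := l)
  set T := B.filter fun p => tau0 (p.2 : R) ≠ 0 with hT
  have hT' : ∀ p ∈ T, ν p.1 * nm (p.2 : R) ≤ L ∧ tau0 (p.2 : R) ≠ 0 := fun p hp =>
    ⟨hB p (Finset.mem_filter.1 hp).1, (Finset.mem_filter.1 hp).2⟩
  have hν : ∀ p ∈ T, ν p.1 ≤ Q * Z := fun p hp =>
    (le_mul_of_one_le_right (h0 _).le (one_le_nm (p_ne p.2.2))).trans ((hT' p hp).1.trans
      (hLZ.trans (le_mul_of_one_le_left (by linarith) hQ1)))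
  have hn : ∀ p ∈ T, nm (p.2 : R) ≤ Q * L := fun p hp => by
    have a1 := (div_le_iff₀' hC).1 (h1 p.1)
    calc nm (p.2 : R) ≤ C * ν p.1 * nm (p.2 : R) := le_mul_of_one_le_left (nm_nonneg _) a1
      _ ≤ Q * L := by
          rw [mul_assoc]
          exact mul_le_mul hQ (hT' p hp).1 (mul_nonneg (h0 _).le (nm_nonneg _)) (by linarith)
  have hQZ : Q * L ≤ Q * Z := by gcongr
  obtain ⟨W, hW⟩ : ∃ W, W = (Q * Z) ^ (δ / 7) := ⟨_, rfl⟩
  have hW0 : 0 ≤ W := by rw [hW]; positivity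
  have hI : ((T.image Prod.fst).card : ℝ) ≤ C₂ * W := hW ▸ H₂ _ _ (by positivity) fun i hi => by
    obtain ⟨p, hp, rfl⟩ := Finset.mem_image.1 hi
    exact hν p hp
  have key := H₁ T (fun p => w p.2 ^ 2 * d p.2 * e p.2 ^ 3) (fun p => c p.2 * d p.2) x (Q * Z) K
    (Q * L) (C₂ * W) A hK (hKZ.trans (le_mul_of_one_le_left (by linarith) hQ1)) hQZ hA
    (fun p hp => by
      obtain ⟨a1, a2, a3, a4, a5, a6, -⟩ := hq _ (hT' p hp).2
      refine ⟨p_mul (p_mul (p_pow a1 2) a3) (p_pow a4 3), p_mul a2 a3, a5, ?_⟩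
      rw [← nm_pow, ← nm_mul, ← a6]
      exact hn p hp)
    fun y z => by
      refine le_trans (Nat.cast_le.2 (Finset.card_le_card_of_injOn Prod.fst (fun p hp =>
        Finset.mem_image_of_mem _ (Finset.mem_filter.1 hp).1) fun p hp p' hp' h => ?_)) hI
      obtain ⟨a1, a2, a3⟩ := Finset.mem_filter.1 hp
      obtain ⟨b1, b2, b3⟩ := Finset.mem_filter.1 hp'
      refine Prod.ext h (Subtype.ext ?_)
      rw [(hq _ (hT' p a1).2).2.2.2.2.2.1, (hq _ (hT' p' b1).2).2.2.2.2.2.1, a2, a3, b2, b3]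
  have e1 : ∀ k, ∑ p ∈ B, x p * sx (p.2 : R) k ^ 3 =
      ∑ p ∈ T, x p * sx ((w p.2 ^ 2 * d p.2 * e p.2 ^ 3) ^ 2 * (c p.2 * d p.2)) k ^ 3 := fun k => by
    rw [hT, Finset.sum_filter]
    refine Finset.sum_congr rfl fun p _ => ?_
    split_ifs with h
    · rw [← (hq _ h).2.2.2.2.2.1]
    · have := hx p
      rw [not_not.1 h, norm_zero, mul_zero] at this
      rw [norm_le_zero_iff.1 this, zero_mul]
  have hinv : ∀ f : R → R, (∀ p ∈ T, Prim (f p.2) ∧ f p.2 ∣ p.2) →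
      ∑ n ∈ T.image fun p => f p.2, (nm n)⁻¹ ≤ C₃ * W := fun f hf =>
    hW ▸ H₃ _ _ (by positivity) fun n hn' => by
      obtain ⟨p, hp, rfl⟩ := Finset.mem_image.1 hn'
      exact ⟨(hf p hp).1, (nm_le_of_dvd (hf p hp).2 (p_ne p.2.2)).trans ((hn p hp).trans hQZ)⟩
  have hd : ∀ p ∈ T, (Prim (w p.2) ∧ w p.2 ∣ p.2) ∧ (Prim (c p.2) ∧ c p.2 ∣ p.2) ∧
      (Prim (d p.2) ∧ d p.2 ∣ p.2) ∧ Prim (e p.2) ∧ e p.2 ∣ p.2 := fun p hp => by
    obtain ⟨a1, a2, a3, a4, -, a6, -⟩ := hq _ (hT' p hp).2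
    generalize w p.2 = w, c p.2 = c, d p.2 = d, e p.2 = e at *
    exact ⟨⟨a1, w ^ 3 * c * d ^ 3 * e ^ 6, by rw [a6]; ring⟩,
      ⟨a2, w ^ 4 * d ^ 3 * e ^ 6, by rw [a6]; ring⟩, ⟨a3, w ^ 4 * c * d ^ 2 * e ^ 6, by rw [a6]; ring⟩,
      a4, w ^ 4 * c * d ^ 3 * e ^ 5, by rw [a6]; ring⟩
  have hi : ∀ n : R, 0 ≤ (nm n)⁻¹ := fun n => inv_nonneg.2 (nm_nonneg n)
  have e2 : ∑ p ∈ T, (nm (w p.2))⁻¹ * (nm (c p.2))⁻¹ * (nm (d p.2))⁻¹ * (nm (e p.2))⁻¹ ≤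
      C₂ * W * (C₃ * W * (C₃ * W * (C₃ * W * (C₃ * W)))) := by
    have hinj : Set.InjOn (fun p : I × Pr R => (p.1, w p.2, c p.2, d p.2, e p.2)) T :=
      fun p hp p' hp' h => by
        simp only [Prod.mk.injEq] at h
        refine Prod.ext h.1 (Subtype.ext ?_)
        rw [(hq _ (hT' p hp).2).2.2.2.2.2.1, (hq _ (hT' p' hp').2).2.2.2.2.2.1, h.2.1, h.2.2.1,
          h.2.2.2.1, h.2.2.2.2]
    calc _ = ∑ q ∈ T.image fun p : I × Pr R => (p.1, w p.2, c p.2, d p.2, e p.2),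
          (nm q.2.1)⁻¹ * ((nm q.2.2.1)⁻¹ * ((nm q.2.2.2.1)⁻¹ * (nm q.2.2.2.2)⁻¹)) := by
          rw [Finset.sum_image hinj]
          simp only [mul_assoc]
      _ ≤ ∑ q ∈ T.image Prod.fst ×ˢ (T.image fun p => w p.2) ×ˢ (T.image fun p => c p.2) ×ˢ
            (T.image fun p => d p.2) ×ˢ (T.image fun p => e p.2),
          (nm q.2.1)⁻¹ * ((nm q.2.2.1)⁻¹ * ((nm q.2.2.2.1)⁻¹ * (nm q.2.2.2.2)⁻¹)) := by
          refine Finset.sum_le_sum_of_subset_of_nonneg (fun q hq' => ?_) fun q _ _ =>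
            mul_nonneg (hi _) (mul_nonneg (hi _) (mul_nonneg (hi _) (hi _)))
          obtain ⟨p, hp, rfl⟩ := Finset.mem_image.1 hq'
          simp only [Finset.mem_product]
          exact ⟨Finset.mem_image_of_mem _ hp, Finset.mem_image_of_mem (fun p => w p.2) hp,
            Finset.mem_image_of_mem (fun p => c p.2) hp, Finset.mem_image_of_mem (fun p => d p.2) hp,
            Finset.mem_image_of_mem (fun p => e p.2) hp⟩
      _ ≤ _ := by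
          simp only [Finset.sum_product, ← Finset.mul_sum, ← Finset.sum_mul, Finset.sum_const,
            nsmul_eq_mul]
          have s0 : ∀ S : Finset R, 0 ≤ ∑ n ∈ S, (nm n)⁻¹ := fun S => Finset.sum_nonneg fun _ _ => hi _
          refine le_trans (le_of_eq (by ring)) (mul_le_mul hI (mul_le_mul (hinv w fun p hp => (hd p hp).1)
            (mul_le_mul (hinv c fun p hp => (hd p hp).2.1)
              (mul_le_mul (hinv d fun p hp => (hd p hp).2.2.1) (hinv e fun p hp => (hd p hp).2.2.2)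
                (s0 _) (by positivity)) (mul_nonneg (s0 _) (s0 _)) (by positivity))
            (mul_nonneg (s0 _) (mul_nonneg (s0 _) (s0 _))) (by positivity))
            (mul_nonneg (s0 _) (mul_nonneg (s0 _) (mul_nonneg (s0 _) (s0 _)))) (by positivity))
  have e3 : ∑ p ∈ T, nm (w p.2 ^ 2 * d p.2 * e p.2 ^ 3) * ‖x p‖ ^ 2 ≤
      C ^ 2 * L * (C₂ * W * (C₃ * W * (C₃ * W * (C₃ * W * (C₃ * W))))) := by
    refine le_trans ?_ (mul_le_mul_of_nonneg_left e2 (by positivity))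
    rw [Finset.mul_sum]
    refine Finset.sum_le_sum fun p hp => ?_
    have a1 := (hq _ (hT' p hp).2).2.2.2.2.2.2
    have a2 := pow_le_pow_left₀ (norm_nonneg _) (hx p) 2
    rw [mul_pow, mul_pow, Real.sq_sqrt (h0 _).le] at a2
    refine (mul_le_mul_of_nonneg_left a2 (nm_nonneg _)).trans ?_
    rw [mul_left_comm, a1, mul_assoc, ← mul_assoc (ν p.1), mul_assoc (C ^ 2)]
    exact mul_le_mul_of_nonneg_left (mul_le_mul_of_nonneg_right (hT' p hp).1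
      (mul_nonneg (mul_nonneg (mul_nonneg (hi _) (hi _)) (hi _)) (hi _))) (sq_nonneg _)
  have e4 : W ^ 7 = Q ^ δ * Z ^ δ := by
    rw [hW, ← Real.rpow_natCast, ← Real.rpow_mul (by positivity), ← Real.mul_rpow (by linarith)
      (by linarith)]
    congr 1
    push_cast
    ring
  simp only [e1]
  rw [← hW] at key
  have e5 : K + Q * L ≤ Q * (K + L) := by nlinarith
  calc _ ≤ C₁ * W * (C₂ * W) * (Q * (K + L) *
        (C ^ 2 * L * (C₂ * W * (C₃ * W * (C₃ * W * (C₃ * W * (C₃ * W))))))) := by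
        refine key.trans (mul_le_mul_of_nonneg_left (mul_le_mul e5 e3 (Finset.sum_nonneg fun p _ =>
          mul_nonneg (nm_nonneg _) (sq_nonneg _)) (by positivity)) (by positivity))
    _ = C₁ * C₂ ^ 2 * C₃ ^ 4 * C ^ 2 * Q * W ^ 7 * (K * L + L ^ 2) := by ring
    _ = _ := by rw [e4]; ring

theorem dual_of (hE : StE R) (hC : 0 < C) (h1 : ∀ i, 1 / C ≤ ν i)
    (h2 : ∀ d : ℝ, 0 < d → Summable fun i => ν i ^ (-d)) (ε : I → Rˣ) {b : I × Pr R → ℂ}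
    (hb : ∀ p, ‖b p‖ ≤ C * √(ν p.1) * ‖tau0 (p.2 : R)‖) :
    Dual (fun p : I × Pr R => ν p.1 * nm (p.2 : R)) b
      (fun p k => sx (ε p.1 * p.2 : R) k ^ 3) nm fun k : R => Prim k ∧ Squarefree k := by
  have h0 : ∀ i, 0 < ν i := fun i => (one_div_pos.2 hC).trans_le (h1 i)
  have hp : ∀ p : I × Pr R, 0 < ν p.1 * nm (p.2 : R) := fun p => mul_pos (h0 _) (nm_pos (p_ne p.2.2))
  refine ⟨hp, fun X => ?_, ⟨fun p _ => hp p, ?_⟩,
    fun p k => (norm_pow _ 3).trans_le (pow_le_one₀ (norm_nonneg _) (norm_sx_le _ _)),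
    fun k hk => one_le_nm (p_ne hk.1), ?_, fun δ hδ => ?_⟩
  · have a1 : {i | ν i ≤ X}.Finite := by
      obtain ⟨C', -, H⟩ := de_fin hC h1 h2 one_pos
      by_contra h
      obtain ⟨N, hN⟩ := exists_nat_gt (C' * |X| ^ (1 : ℝ))
      obtain ⟨S, hS, hc⟩ := Set.Infinite.exists_subset_card_eq h N
      have := H |X| S (abs_nonneg X) fun i hi => le_trans (hS hi) (le_abs_self X)
      rw [hc] at this
      linarith
    refine (a1.prod (p_fin (C * X))).subset fun p hp' => ⟨?_, ?_⟩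
    · exact (le_mul_of_one_le_right (h0 _).le (one_le_nm (p_ne p.2.2))).trans hp'
    · exact (le_mul_of_one_le_left (nm_nonneg _) ((div_le_iff₀' hC).1 (h1 p.1))).trans
        (by rw [mul_assoc]; exact mul_le_mul_of_nonneg_left hp' hC.le)
  · have a1 := ((h2 (5 / 2) (by norm_num)).mul_left C).mul_of_nonneg (adm_tau (R := R)).2
      (fun i => mul_nonneg hC.le (Real.rpow_nonneg (h0 i).le _))
      fun n => mul_nonneg (norm_nonneg _) (Real.rpow_nonneg (nm_nonneg _) _)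
    refine Summable.of_nonneg_of_le
      (fun p => mul_nonneg (norm_nonneg _) (Real.rpow_nonneg (hp p).le _)) (fun p => ?_) a1
    refine (mul_le_mul_of_nonneg_right (hb p) (Real.rpow_nonneg (hp p).le _)).trans (le_of_eq ?_)
    rw [Real.mul_rpow (h0 _).le (nm_nonneg _), Real.sqrt_eq_rpow,
      show (-(5 / 2) : ℝ) = 1 / 2 + -3 by norm_num, Real.rpow_add (h0 _)]
    ring
  · obtain ⟨C', hC', H⟩ := p_count (R := R)
    exact ⟨C', hC', fun K A hK hA => H K A hK fun k hk => ⟨(hA k hk).1.1, (hA k hk).2⟩⟩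
  · obtain ⟨C', hC', H⟩ := de_en hE hC h1 h2 hδ
    refine ⟨Fintype.card (Cl R) * C', by positivity, fun φ Z K L A B hK hKZ hL hLZ hφ hA hB => ?_⟩
    rw [← Finset.sum_fiberwise A cls, mul_assoc, mul_assoc, ← mul_assoc C', ← nsmul_eq_mul]
    refine Finset.sum_le_card_nsmul _ _ _ fun y _ => ?_
    refine le_trans (le_of_eq (Finset.sum_congr rfl fun k hk => ?_))
      (H (fun p => b p * (φ p * hs (cls (ε p.1 : R)) y ^ 3)) Z K L (A.filter fun k => cls k = y) B hK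
        hKZ hL hLZ (fun p => ?_) (fun k hk => ?_) hB)
    · obtain ⟨hk', rfl⟩ := Finset.mem_filter.1 hk
      congr 2
      refine Finset.sum_congr rfl fun p _ => ?_
      rw [sx_mul_left, sx_unit_left (ε p.1).isUnit (p_ne (hA k hk').1.1)]
      ring
    · rw [norm_mul, norm_mul, norm_pow, norm_hs, one_pow, mul_one]
      exact (mul_le_of_le_one_right (norm_nonneg _) (hφ p)).trans (hb p)
    · obtain ⟨⟨a1, a2⟩, a3⟩ := hA k (Finset.mem_filter.1 hk).1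
      exact ⟨a1, a2, a3⟩

end

end Crest.Agent.R27.F
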