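import Crest.Agent.R27.A.Gauss
import Crest.Agent.R27.F.Pre
import Crest.Agent.R27.F.Ana

/-!
Row 27, block F (theta energy; owner helper72): definitions, characters, linearity.

Chain: `StF ⇐ S4 ⇐ S5 ⇐ Dual.core + StTheta`, `Dual ⇐ StE`.
* `S4`: one class `x` of columns, symbol turned around by reciprocity;
* `S5`: squarefree rows and one extra character modulo `e`.
-/

set_option autoImplicit false
set_option linter.unusedSectionVars false

namespace Crest.Agent.R27.F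

open Crest.Agent.R27.Ab
open Crest.Agent.R17 (LN LNt EntBdd gth SS DD Adm)
open scoped Classical ComplexConjugate

variable {R : Type} [CommRing R] [IsDomain R] [IsPrincipalIdealRing R] [Abs R]

/-- a character modulo `e` of order dividing six, trivial on `U1` -/
structure Tw (e : R) (χ : R → ℂ) : Prop where
  mul : ∀ a b, χ (a * b) = χ a * χ b
  per : Per e χ
  six : ∀ a, χ a ^ 6 = if IsCoprime a e then 1 else 0
  unit : ∀ u, U1 u → χ u = 1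

/-- primal side of a character modulo `e` -/
noncomputable def Fp (e : R) (χ : R → ℂ) (n : R) : ℂ := FT e (fun y => conj (χ y)) (-n)

/-- dual side of a character modulo `e` -/
noncomputable def Fd (e : R) (χ : R → ℂ) (l : R) : ℂ := FT e (fun y => χ y * cb y e ^ 2) l

/-- the coefficients of the class `x` -/
noncomputable def tc (x : Cl R) (n : R) : ℂ := if cls n = x then tau0 n * al n else 0

/-- smooth theta sum over the class `x` with a factor `G` -/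
noncomputable def Th (x : Cl R) (G : R → ℂ) (a Y t : ℝ) : ℂ :=
  SS (fun n : Pr R => tc x (n : R) * G n) (fun n => nm (n : R)) a Y t

/-- additive expansion of `n ↦ conj (n / f)₆` -/
def Exp (f : R) : Prop :=
  ∃ (ι : Type) (I : Finset ι) (e : ι → R) (χ : ι → R → ℂ) (w : ι → ℂ),
    (∑ i ∈ I, ‖w i‖ * nm (e i)) ^ 4 ≤ nm f ∧
    (∀ i ∈ I, Prim (e i) ∧ e i ^ 2 ∣ f ∧ Tw (e i) (χ i)) ∧
    ∀ n, conj (sx n f) = ∑ i ∈ I, w i * Fp (e i) (χ i) n

def S4 (x : Cl R) (D : ℕ) : Prop :=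
  ∀ a ε : ℝ, 0 < a → 0 < ε → ∃ C : ℝ, 0 ≤ C ∧ ∀ (Z K Y t : ℝ) (A : Finset R),
    1 ≤ K → K ≤ Z → Z⁻¹ ≤ Y → Y ≤ Z → (∀ k ∈ A, Prim k ∧ nm k ≤ K) →
    ∑ k ∈ A, ‖Th x (fun n => conj (sx n k)) a Y t‖ ^ 2 ≤
      C * Z ^ ε * (1 + |t|) ^ D * (Y * K + K ^ 2)

def S5 (x : Cl R) (D : ℕ) : Prop :=
  ∀ a ε : ℝ, 0 < a → 0 < ε → ∃ C : ℝ, 0 ≤ C ∧
    ∀ (e : R) (χ : R → ℂ) (Z K Y t : ℝ) (A : Finset R),
    Prim e → Tw e χ → nm e ≤ Z →
    1 ≤ K → K ≤ Z → Z⁻¹ ≤ Y → Y ≤ Z → (∀ k ∈ A, Sq K k ∧ IsCoprime k e) →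
    ∑ k ∈ A, ‖Th x (fun n => Fp e χ n * conj (sx n k)) a Y t‖ ^ 2 ≤
      C * Z ^ ε * (1 + |t|) ^ D * (nm e ^ 2 * (Y * K + (nm e * K) ^ 2))

section Tw
variable {e : R} {χ : R → ℂ}

theorem Tw.zero (h : Tw e χ) {a : R} (ha : ¬ IsCoprime a e) : χ a = 0 :=
  pow_eq_zero_iff (by norm_num : 6 ≠ 0) |>.1 ((h.six a).trans (if_neg ha))

theorem Tw.norm_eq (h : Tw e χ) {a : R} (ha : IsCoprime a e) : ‖χ a‖ = 1 := by
  have h1 := congrArg norm ((h.six a).trans (if_pos ha))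
  rw [norm_pow, norm_one] at h1
  exact (pow_eq_one_iff_of_nonneg (norm_nonneg _) (by norm_num)).1 h1

theorem Tw.norm_le (h : Tw e χ) (a : R) : ‖χ a‖ ≤ 1 := by
  by_cases ha : IsCoprime a e
  · exact (h.norm_eq ha).le
  · simp [h.zero ha]

theorem Tw.mul_conj (h : Tw e χ) {a : R} (ha : IsCoprime a e) : χ a * conj (χ a) = 1 := by
  rw [Complex.mul_conj, Complex.normSq_eq_norm_sq, h.norm_eq ha]
  simp

theorem Tw.one (h : Tw e χ) : χ 1 = 1 := h.unit 1 ⟨isUnit_one, fun _ hb => sx_one_left hb⟩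

theorem Tw.conj (h : Tw e χ) : Tw e fun y => conj (χ y) := by
  refine ⟨fun a b => by rw [h.mul, map_mul], fun a b hab => by rw [h.per a b hab], fun a => ?_,
    fun u hu => by rw [h.unit u hu, map_one]⟩
  rw [← map_pow, h.six]
  split_ifs <;> simp

theorem Tw.mul₂ {e₁ e₂ : R} {χ₁ χ₂ : R → ℂ} (h₁ : Tw e₁ χ₁) (h₂ : Tw e₂ χ₂) :
    Tw (e₁ * e₂) fun y => χ₁ y * χ₂ y := by
  refine ⟨fun a b => by rw [h₁.mul, h₂.mul]; ring, fun a b h => ?_, fun a => ?_,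
    fun u hu => by rw [h₁.unit u hu, h₂.unit u hu, one_mul]⟩
  · rw [h₁.per a b (dvd_of_mul_right_dvd h), h₂.per a b (dvd_of_mul_left_dvd h)]
  · rw [mul_pow, h₁.six, h₂.six, IsCoprime.mul_right_iff]
    by_cases a1 : IsCoprime a e₁ <;> by_cases a2 : IsCoprime a e₂ <;> simp [a1, a2]

theorem Tw.mul' {χ' : R → ℂ} (h : Tw e χ) (h' : Tw e χ') : Tw e fun y => χ y * χ' y := by
  refine ⟨fun a b => by rw [h.mul, h'.mul]; ring, h.per.mul h'.per, fun a => ?_,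
    fun u hu => by rw [h.unit u hu, h'.unit u hu, one_mul]⟩
  rw [mul_pow, h.six, h'.six]
  split_ifs <;> simp

theorem tw_sx {k : R} (hk : k ≠ 0) {j : ℕ} (hj : j ≠ 0) : Tw k fun y => sx y k ^ j := by
  refine ⟨fun a b => by rw [sx_mul_left, mul_pow], fun a b h => by rw [sx_congr h], fun a => ?_,
    fun u hu => by rw [hu.2 k hk, one_pow]⟩
  rw [← pow_mul, mul_comm, pow_mul, sx_pow_six]
  by_cases h : IsCoprime a k <;> simp [h, hk, hj]

theorem tw_cb {k : R} (hk : k ≠ 0) : Tw k fun y => cb y k ^ 2 := by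
  simpa only [cb, ← pow_mul] using tw_sx hk (j := 2 * 2) (by norm_num)

/-- Chinese remainder theorem for characters -/
theorem FT_tw_mul {e₁ e₂ : R} {χ₁ χ₂ : R → ℂ} (h₁ : Tw e₁ χ₁) (h₂ : Tw e₂ χ₂) (he₁ : e₁ ≠ 0)
    (he₂ : e₂ ≠ 0) (h : IsCoprime e₁ e₂) (x : R) :
    FT (e₁ * e₂) (fun y => χ₁ y * χ₂ y) x = χ₁ e₂ * χ₂ e₁ * (FT e₁ χ₁ x * FT e₂ χ₂ x) := by
  rw [FT_crt he₁ he₂ h h₁.per h₂.per]
  simp only [h₁.mul, h₂.mul, gsa_FT_const_mul]
  ring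

theorem Fp_bdd (he : e ≠ 0) (hχ : Tw e χ) (n : R) : ‖Fp e χ n‖ ≤ nm e := by
  simpa only [mul_one, Fp] using norm_FT_le he hχ.conj.norm_le (-n)

theorem Fd_bdd (he : e ≠ 0) (hχ : Tw e χ) (n : R) : ‖Fd e χ n‖ ≤ nm e := by
  simpa only [mul_one, Fd] using norm_FT_le he (hχ.mul' (tw_cb he)).norm_le n

end Tw

theorem p_tau {n : R} (h : tau0 n ≠ 0) : ∃ c b, Prim c ∧ Prim b ∧ Squarefree c ∧ n = c * b ^ 3 ∧
    ‖tau0 n‖ ^ 2 = nm b := by
  unfold tau0 at h ⊢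
  split_ifs at h ⊢ with h1
  · obtain ⟨a1, a2, a3, a4⟩ := h1.choose_spec
    refine ⟨_, _, a1, a2, a3, a4, ?_⟩
    rw [norm_mul, Complex.norm_conj, norm_g3 a3, one_mul, Complex.norm_real,
      Real.norm_of_nonneg (Real.sqrt_nonneg _), Real.sq_sqrt (nm_nonneg _)]
  · exact absurd rfl h

theorem p_tau_le (n : R) : ‖tau0 n‖ ≤ nm n := by
  by_cases h : tau0 n = 0
  · rw [h, norm_zero]
    exact nm_nonneg n
  obtain ⟨c, b, hc, hb, -, h1, h2⟩ := p_tau h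
  have h0 : n ≠ 0 := h1 ▸ p_ne (p_mul hc (p_pow hb 3))
  have h3 : nm b ≤ nm n := nm_le_of_dvd ⟨c * b ^ 2, by rw [h1]; ring⟩ h0
  have h4 := one_le_nm h0
  exact abs_le_of_sq_le_sq' (by nlinarith) (by linarith) |>.2

theorem adm_tau : Adm (fun n : Pr R => tau0 (n : R)) (fun n => nm (n : R)) 3 := by
  refine ⟨fun n _ => nm_pos (p_ne n.2), Summable.of_nonneg_of_le
    (fun n => mul_nonneg (norm_nonneg _) (Real.rpow_nonneg (nm_nonneg _) _)) (fun n => ?_)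
    (p_summable (R := R) one_lt_two)⟩
  have h0 := nm_pos (p_ne n.2)
  calc _ ≤ nm (n : R) ^ (1 : ℝ) * nm (n : R) ^ (-3 : ℝ) := by
        rw [Real.rpow_one]
        exact mul_le_mul_of_nonneg_right (p_tau_le _) (by positivity)
    _ = _ := by rw [← Real.rpow_add h0]; norm_num

theorem norm_tc_le (x : Cl R) (n : R) : ‖tc x n‖ ≤ ‖tau0 n‖ := by
  unfold tc
  split_ifs
  · rw [norm_mul]
    exact mul_le_of_le_one_right (norm_nonneg _) (norm_al_le n)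
  · simp

theorem adm_Th (x : Cl R) {G : R → ℂ} {B : ℝ} (hG : ∀ n, ‖G n‖ ≤ B) :
    Adm (fun n : Pr R => tc x (n : R) * G n) (fun n => nm (n : R)) 3 :=
  adm_tau.of_le (M := B) fun n => by
    rw [norm_mul, mul_comm]
    exact mul_le_mul (hG _) (norm_tc_le x _) (norm_nonneg _) ((norm_nonneg _).trans (hG 0))

theorem Th_const_mul (x : Cl R) (G : R → ℂ) (z : ℂ) (a Y t : ℝ) :
    Th x (fun n => z * G n) a Y t = z * Th x G a Y t := by
  unfold Th SS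
  rw [← tsum_mul_left]
  exact tsum_congr fun n => by ring

theorem Th_sum (x : Cl R) {ι : Type*} (S : Finset ι) {G : ι → R → ℂ}
    (hG : ∀ i ∈ S, ∃ B : ℝ, ∀ n, ‖G i n‖ ≤ B) {a Y : ℝ} (ha : 0 < a) (hY : 0 < Y) (t : ℝ) :
    Th x (fun n => ∑ i ∈ S, G i n) a Y t = ∑ i ∈ S, Th x (G i) a Y t := by
  unfold Th SS
  rw [← Summable.tsum_finsetSum fun i hi => (hG i hi).elim fun B hB =>
    ((adm_Th x hB).summable_SS ha hY t).of_norm]
  refine tsum_congr fun n => ?_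
  simp only [Finset.mul_sum, Finset.sum_mul]

end Crest.Agent.R27.F
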