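import Crest.Agent.R27.F.Defs

/-!
Row 27, block F: additive expansion of the squarefull part of the row.
-/

set_option autoImplicit false
set_option linter.unusedSectionVars false

namespace Crest.Agent.R27.F

open Crest.Agent.R27.Ab
open scoped Classical ComplexConjugate

variable {R : Type} [CommRing R] [IsDomain R] [IsPrincipalIdealRing R] [Abs R]

theorem fx_tw_one : Tw (1 : R) fun _ => 1 :=
  ⟨fun _ _ => (one_mul 1).symm, fun _ _ _ => rfl, fun a => by simp [isCoprime_one_right],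
    fun _ _ => rfl⟩

theorem fx_Fp_one (n : R) : Fp 1 (fun _ => 1) n = 1 := by
  simpa [gs, Fp] using gs_unit 0 (-n) isUnit_one

theorem exp_one : Exp (1 : R) := by
  refine ⟨Unit, Finset.univ, fun _ => 1, fun _ _ => 1, fun _ => 1, by simp,
    fun _ _ => ⟨p_one, by simp, fx_tw_one⟩, fun n => ?_⟩
  simp [fx_Fp_one]

theorem exp_pow {p : R} (hp : Prime p) (h1 : Prim p) {v : ℕ} (hv : 2 ≤ v) (h6 : ¬ 6 ∣ v) :
    Exp (p ^ v) := by
  have hN := nm_pos hp.ne_zero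
  have hs : 0 < Real.sqrt (nm p) := Real.sqrt_pos.2 hN
  have hW : ‖conj (sx (-1) p) ^ v * gs v 1 p‖ = Real.sqrt (nm p) := by
    rw [norm_mul, norm_pow, Complex.norm_conj, norm_sx hp.ne_zero isCoprime_one_left.neg_left,
      one_pow, one_mul, norm_gs hp.squarefree h6]
  have hW0 : conj (sx (-1) p) ^ v * gs v 1 p ≠ 0 := by
    rw [← norm_ne_zero_iff, hW]
    exact hs.ne'
  refine ⟨Unit, Finset.univ, fun _ => p, fun _ y => sx y p ^ (5 * v),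
    fun _ => (conj (sx (-1) p) ^ v * gs v 1 p)⁻¹, ?_,
    fun _ _ => ⟨h1, pow_dvd_pow p hv, tw_sx hp.ne_zero (by omega)⟩, fun n => ?_⟩
  · rw [Finset.univ_unique, Finset.sum_singleton, norm_inv, hW, nm_pow, inv_mul_eq_div,
      Real.div_sqrt, show 4 = 2 * 2 from rfl, pow_mul, Real.sq_sqrt hN.le]
    exact pow_le_pow_right₀ (one_le_nm hp.ne_zero) hv
  · have h3 : Fp p (fun y => sx y p ^ (5 * v)) n = gs v (-n) p := by
      rw [← gs_congr_mod (j := 5 * (5 * v)) (by omega) (by omega) (by omega)]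
      simp only [Fp, gs, map_pow, conj_sx, ← pow_mul]
    rw [Finset.univ_unique, Finset.sum_singleton, h3, gs_sqfree hp.squarefree h6 (-n), ← neg_one_mul n,
      sx_mul_left, map_mul, mul_pow, mul_right_comm, inv_mul_cancel_left₀ hW0, sx_pow_right, map_pow]

theorem exp_pow_six {p : R} (hp : Prime p) (h1 : Prim p) {v : ℕ} (hv : 2 ≤ v) (h6 : 6 ∣ v) :
    Exp (p ^ v) := by
  have hN := nm_pos hp.ne_zero
  have hN1 := one_le_nm hp.ne_zero
  have hN0 : (nm p : ℂ) ≠ 0 := Complex.ofReal_ne_zero.2 hN.ne'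
  refine ⟨Bool, Finset.univ, fun b => bif b then p else 1,
    fun b => bif b then (fun y => sx y p ^ 6) else fun _ => 1,
    fun b => bif b then -(nm p : ℂ)⁻¹ else 1 - (nm p : ℂ)⁻¹, ?_, ?_, fun n => ?_⟩
  · have h3 : (1 - (nm p : ℂ)⁻¹) = ((1 - (nm p)⁻¹ : ℝ) : ℂ) := by push_cast; rfl
    have h4 : (nm p)⁻¹ ≤ 1 := inv_le_one_of_one_le₀ hN1
    have h5 : 0 ≤ (nm p)⁻¹ := by positivity
    simp only [Fintype.sum_bool, cond_true, cond_false, nm_one, mul_one]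
    rw [h3, norm_neg, norm_inv, Complex.norm_real, Complex.norm_real, Real.norm_of_nonneg hN.le,
      Real.norm_of_nonneg (by linarith), inv_mul_cancel₀ hN.ne', nm_pow]
    exact (pow_le_pow_left₀ (by linarith) (by linarith [two_le_nm hp]) 4).trans
      (pow_le_pow_right₀ hN1 (by omega))
  · rintro (_ | _) -
    · exact ⟨p_one, by simp, fx_tw_one⟩
    · exact ⟨h1, pow_dvd_pow p hv, tw_sx hp.ne_zero (by norm_num)⟩
  · have h3 : Fp p (fun y => sx y p ^ 6) n = gs 6 (-n) p := by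
      rw [← gs_congr_mod (j := 5 * 6) (by omega) (by omega) (by omega)]
      simp only [Fp, gs, map_pow, conj_sx, ← pow_mul]
    obtain ⟨k, rfl⟩ := h6
    simp only [Fintype.sum_bool, cond_true, cond_false, fx_Fp_one, h3]
    rw [gs_prime_six hp (by norm_num) dvd_rfl, sx_pow_right, pow_mul, sx_pow_six, dvd_neg]
    by_cases h : p ∣ n
    · rw [if_pos h, if_neg fun h' => hp.coprime_iff_not_dvd.1 h'.2.symm h, zero_pow (by omega), map_zero]
      field_simp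
      ring
    · rw [if_neg h, if_pos ⟨hp.ne_zero, (hp.coprime_iff_not_dvd.2 h).symm⟩, one_pow, map_one]
      ring

theorem exp_mul {f₁ f₂ : R} (h : IsCoprime f₁ f₂) (e₁ : Exp f₁) (e₂ : Exp f₂) : Exp (f₁ * f₂) := by
  obtain ⟨ι₁, I₁, e₁, χ₁, w₁, c₁, a₁, b₁⟩ := e₁
  obtain ⟨ι₂, I₂, e₂, χ₂, w₂, c₂, a₂, b₂⟩ := e₂
  have hc : ∀ i ∈ I₁, ∀ j ∈ I₂, IsCoprime (e₁ i) (e₂ j) := fun i hi j hj =>
    (h.of_isCoprime_of_dvd_left ((dvd_pow_self _ two_ne_zero).trans (a₁ i hi).2.1)).of_isCoprime_of_dvd_right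
      ((dvd_pow_self _ two_ne_zero).trans (a₂ j hj).2.1)
  refine ⟨ι₁ × ι₂, I₁ ×ˢ I₂, fun i => e₁ i.1 * e₂ i.2, fun i y => χ₁ i.1 y * χ₂ i.2 y,
    fun i => w₁ i.1 * w₂ i.2 * χ₁ i.1 (e₂ i.2) * χ₂ i.2 (e₁ i.1), ?_, ?_, fun n => ?_⟩
  · have h0 : ∀ {ι : Type} (I : Finset ι) (w : ι → ℂ) (e : ι → R), 0 ≤ ∑ i ∈ I, ‖w i‖ * nm (e i) :=
      fun I w e => Finset.sum_nonneg fun i _ => mul_nonneg (norm_nonneg _) (nm_nonneg _)
    rw [nm_mul]
    refine le_trans (pow_le_pow_left₀ (h0 _ _ _) (le_of_eq ?_) 4) ((mul_pow _ _ 4).trans_le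
      (mul_le_mul c₁ c₂ (pow_nonneg (h0 _ _ _) 4) (nm_nonneg _)))
    rw [Finset.sum_mul_sum, Finset.sum_product]
    refine Finset.sum_congr rfl fun i hi => Finset.sum_congr rfl fun j hj => ?_
    rw [norm_mul, norm_mul, norm_mul, (a₁ i hi).2.2.norm_eq (hc i hi j hj).symm,
      (a₂ j hj).2.2.norm_eq (hc i hi j hj), nm_mul]
    ring
  · rintro ⟨i, j⟩ hij
    obtain ⟨hi, hj⟩ := Finset.mem_product.1 hij
    obtain ⟨p₁, d₁, t₁⟩ := a₁ i hi
    obtain ⟨p₂, d₂, t₂⟩ := a₂ j hj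
    exact ⟨p_mul p₁ p₂, by rw [mul_pow]; exact mul_dvd_mul d₁ d₂, t₁.mul₂ t₂⟩
  · rw [sx_mul_right, map_mul, b₁, b₂, Finset.sum_mul_sum, Finset.sum_product]
    refine Finset.sum_congr rfl fun i hi => Finset.sum_congr rfl fun j hj => ?_
    obtain ⟨p₁, -, t₁⟩ := a₁ i hi
    obtain ⟨p₂, -, t₂⟩ := a₂ j hj
    have h3 : Fp (e₁ i * e₂ j) (fun y => χ₁ i y * χ₂ j y) n =
        conj (χ₁ i (e₂ j)) * conj (χ₂ j (e₁ i)) * (Fp (e₁ i) (χ₁ i) n * Fp (e₂ j) (χ₂ j) n) := by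
      rw [Fp, Fp, Fp, ← FT_tw_mul t₁.conj t₂.conj (p_ne p₁) (p_ne p₂) (hc i hi j hj)]
      simp only [map_mul]
    have h4 := t₁.mul_conj (hc i hi j hj).symm
    have h5 := t₂.mul_conj (hc i hi j hj)
    dsimp only
    rw [h3]
    calc _ = (χ₁ i (e₂ j) * conj (χ₁ i (e₂ j))) * (χ₂ j (e₁ i) * conj (χ₂ j (e₁ i))) *
          (w₁ i * Fp (e₁ i) (χ₁ i) n * (w₂ j * Fp (e₂ j) (χ₂ j) n)) := by rw [h4, h5, one_mul, one_mul]
      _ = _ := by ring

/-- every row is `a² c³ m` with `m` squarefree -/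
theorem fx {k : R} (hk : Prim k) : ∃ a c m : R, Prim a ∧ Prim c ∧ Prim m ∧ Squarefree m ∧
    IsCoprime (a ^ 2 * c ^ 3) m ∧ k = a ^ 2 * c ^ 3 * m ∧ Exp (a ^ 2 * c ^ 3) := by
  refine p_ind (P := fun k => ∃ a c m : R, Prim a ∧ Prim c ∧ Prim m ∧ Squarefree m ∧
    IsCoprime (a ^ 2 * c ^ 3) m ∧ k = a ^ 2 * c ^ 3 * m ∧ Exp (a ^ 2 * c ^ 3)) hk
    ⟨1, 1, 1, p_one, p_one, p_one, squarefree_one, isCoprime_one_right, by simp,
      by simpa using exp_one⟩ ?_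
  rintro p j _ hp hp' - hnd ⟨a, c, m, ha, hc, hm, hs, hco, rfl, he⟩
  have h1 : IsCoprime p (a ^ 2 * c ^ 3) := hp.coprime_iff_not_dvd.2 fun h => hnd (h.mul_right _)
  have h2 : ¬ p ∣ m := fun h => hnd (h.mul_left _)
  rcases j with _ | j
  · exact ⟨a, c, p * m, ha, hc, p_mul hp' hm, p_sqf hp hs h2, h1.symm.mul_right hco, by ring, he⟩
  have key : Exp (p ^ (j + 1 + 1)) := by
    by_cases h6 : 6 ∣ j + 1 + 1
    · exact exp_pow_six hp hp' (by omega) h6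
    · exact exp_pow hp hp' (by omega) h6
  obtain ⟨α, γ, h3⟩ : ∃ α γ, j + 1 + 1 = 2 * α + 3 * γ := by
    obtain ⟨i, hi | hi⟩ := Nat.even_or_odd' j
    · exact ⟨i + 1, 0, by omega⟩
    · exact ⟨i, 1, by omega⟩
  have h4 : (p ^ α * a) ^ 2 * (p ^ γ * c) ^ 3 = p ^ (j + 1 + 1) * (a ^ 2 * c ^ 3) := by
    rw [h3]; ring
  refine ⟨p ^ α * a, p ^ γ * c, m, p_mul (p_pow hp' _) ha, p_mul (p_pow hp' _) hc, hm, hs, ?_,
    by rw [h4, mul_assoc (p ^ _)], ?_⟩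
  · rw [h4]
    exact (hp.coprime_iff_not_dvd.2 h2).pow_left.mul_left hco
  · rw [h4]
    exact exp_mul h1.pow_left key he

end Crest.Agent.R27.F
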