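import Crest.Agent.R17.F.Ker

/-!
Row 27, block F (owner helper72): the reflected test function for the Gamma factor `gth ^ r`,
separation of variables, reflection of smooth sums, tails.  General index types.
-/

set_option autoImplicit false

namespace Crest.Agent.R27.F

open Crest.Agent.R17 Crest.Agent.R17.F Complex MeasureTheory
open scoped Classical ComplexConjugate

/-- the reflected test function -/
noncomputable def WR (r : ℕ) (a t y : ℝ) : ℂ :=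
  VI 0 fun s => LNt a (1 - s + Complex.I * t) * Rth s ^ r * (y : ℂ) ^ (-s)

theorem polyOn_pow (r : ℕ) : PolyOn (-(1 / 3)) fun s => Rth s ^ r := by
  induction r with
  | zero =>
    refine ⟨by simp, fun _ _ _ => ⟨1, 0, zero_le_one, le_rfl, ?_⟩⟩
    intro s _
    simp
  | succ n ih => simpa only [pow_succ] using gc_polyOn_mul ih polyOn_Rth

theorem expOn_pow {σ₁ σ₂ : ℝ} {F : ℂ → ℂ} (h : ExpOn σ₁ σ₂ F) (r : ℕ) :
    ExpOn σ₁ σ₂ fun s => F s ^ r := by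
  induction r with
  | zero => exact ExpOn.of_bdd (B := 1) fun s _ => by simp
  | succ n ih => simpa only [pow_succ] using ih.mul h

theorem WR_eq_VI (r : ℕ) {a y σ : ℝ} (ha : 0 < a) (hy : 0 < y) (hσ : 0 ≤ σ) (t : ℝ) :
    VInt σ (fun s => LNt a (1 - s + I * t) * Rth s ^ r * (y : ℂ) ^ (-s)) ∧
    WR r a t y = VI σ fun s => LNt a (1 - s + I * t) * Rth s ^ r * (y : ℂ) ^ (-s) := by
  have e : (fun s : ℂ => LNt a (1 - s + I * t) * Rth s ^ r * (y : ℂ) ^ (-s)) =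
      fun s => LNt a (s + (-1 - I * t)) * (Rth s ^ r * (y : ℂ) ^ (-s)) := by
    funext s
    rw [← LNt_neg a (s + (-1 - I * t)), mul_assoc]
    congr 2
    ring
  obtain ⟨C, A, -, -, hC⟩ := (polyOn_pow r).2 0 σ (by norm_num)
  have hd : DifferentiableOn ℂ (fun s => Rth s ^ r * (y : ℂ) ^ (-s)) (strip 0 σ) := by
    refine ((polyOn_pow r).1.mono fun s hs => ?_).mul ?_
    · have := hs.1
      simp only [Set.mem_ofPred_eq]
      linarith
    · exact (differentiable_id.neg.const_cpow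
        (Or.inl (ofReal_ne_zero.2 hy.ne'))).differentiableOn
  have hb : ExpOn 0 σ fun s => Rth s ^ r * (y : ℂ) ^ (-s) :=
    (ExpOn.of_poly hC).mul (by simpa using expOn_cpow hy 0 σ (-1) 0)
  obtain ⟨-, h2, h3⟩ := VI_shift_LNt ha (-1 - I * t) hσ hd hb
  unfold WR
  rw [e]
  exact ⟨h2, h3⟩

theorem norm_WR_le (r : ℕ) {a : ℝ} (ha : 0 < a) (m : ℕ) : ∃ C : ℝ, 0 ≤ C ∧ ∀ t y : ℝ, 0 < y →
    ‖WR r a t y‖ ≤ C * (1 + |t|) ^ (2 * m * r) * y ^ (-((m + 1) / 2 : ℝ)) := by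
  obtain ⟨C₁, hC₁, h₁⟩ := norm_VI_le_gauss (c := a ^ 2 / 2) (A := ((2 * m * r : ℕ) : ℝ))
    (by positivity) (Nat.cast_nonneg _)
  obtain ⟨C₂, hC₂, h₂⟩ := kera_Rth m
  refine ⟨C₁ * (√(2 * Real.pi) * a * Real.exp (a ^ 2 * (1 - (m + 1) / 2) ^ 2 / 2) * C₂ ^ r),
    by positivity, fun t y hy => ?_⟩
  rw [(WR_eq_VI r (σ := (m + 1) / 2) ha hy (by positivity) t).2]
  refine (h₁ _ t (√(2 * Real.pi) * a * Real.exp (a ^ 2 * (1 - (m + 1) / 2) ^ 2 / 2) * C₂ ^ r *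
    y ^ (-((m + 1) / 2 : ℝ))) _ fun v => ?_).trans (le_of_eq ?_)
  · have h3 := h₂ ((((m + 1) / 2 : ℝ) : ℂ) + v * I) (by simp)
    have e1 : ((((m + 1) / 2 : ℝ) : ℂ) + v * I).im = v := by simp
    have e2 : (1 - ((((m + 1) / 2 : ℝ) : ℂ) + v * I) + I * t).re = 1 - (m + 1) / 2 := by simp
    have e3 : (1 - ((((m + 1) / 2 : ℝ) : ℂ) + v * I) + I * t).im ^ 2 = (v - t) ^ 2 := by
      simp only [add_im, sub_im, one_im, e1, mul_im, I_re, I_im, ofReal_re, ofReal_im]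
      ring
    have e4 : (-((((m + 1) / 2 : ℝ) : ℂ) + v * I)).re = -((m + 1) / 2) := by simp
    rw [e1, Real.rpow_natCast] at h3
    have h4 := pow_le_pow_left₀ (norm_nonneg _) h3 r
    rw [mul_pow, ← pow_mul] at h4
    rw [norm_mul, norm_mul, norm_pow, norm_LNt ha.le, norm_cpow_eq_rpow_re_of_pos hy, e2, e3, e4,
      Real.rpow_natCast]
    refine (mul_le_mul_of_nonneg_right (mul_le_mul_of_nonneg_left h4 (by positivity))
      (by positivity)).trans (le_of_eq ?_)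
    ring
  · rw [Real.rpow_natCast]
    ring

/-- separation of variables on `Re s = 0` -/
theorem sepR (r : ℕ) {a : ℝ} (ha : 0 < a) : ∃ C : ℝ, 0 ≤ C ∧
    ∀ {κ ι : Type} (A : Finset κ) (J : Finset ι) (x : κ → ι → ℂ) (y : κ → ι → ℝ) (t B : ℝ),
      (∀ k ∈ A, ∀ j ∈ J, 0 < y k j) →
      (∀ v : ℝ, ∑ k ∈ A, ‖∑ j ∈ J, x k j * (y k j : ℂ) ^ (-(v * I))‖ ^ 2 ≤ B) →
      ∑ k ∈ A, ‖∑ j ∈ J, x k j * WR r a t (y k j)‖ ^ 2 ≤ C * B := by
  have hg : Integrable fun v : ℝ => Real.exp (-(a ^ 2 / 2) * v ^ 2) :=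
    integrable_exp_neg_mul_sq (by positivity)
  set c₀ : ℝ := √(2 * Real.pi) * a * Real.exp (a ^ 2 / 2) * 7 ^ r with hc₀
  refine ⟨(c₀ * ∫ v : ℝ, Real.exp (-(a ^ 2 / 2) * v ^ 2)) ^ 2, sq_nonneg _, ?_⟩
  intro κ ι A J x y t B hy hB
  set φ : ℝ → ℝ := fun v => c₀ * Real.exp (-(a ^ 2 / 2) * (v - t) ^ 2) with hφ
  have hφ0 : ∀ v, 0 ≤ φ v := fun v => by rw [hφ, hc₀]; positivity
  have hφi : Integrable φ := (hg.comp_sub_right t).const_mul c₀
  have hφI : ∫ v, φ v = c₀ * ∫ v : ℝ, Real.exp (-(a ^ 2 / 2) * v ^ 2) := by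
    rw [hφ, integral_const_mul,
      integral_sub_right_eq_self (fun v : ℝ => Real.exp (-(a ^ 2 / 2) * v ^ 2)) t]
  have hI0 : 0 ≤ ∫ v, φ v := integral_nonneg hφ0
  set K : ℂ → ℂ := fun s => LNt a (1 - s + I * t) * Rth s ^ r with hK
  have hKm : AEStronglyMeasurable (fun v : ℝ => K ((0 : ℝ) + v * I)) volume := by
    have := (WR_eq_VI r ha one_pos le_rfl t).1
    simp only [VInt, ofReal_one, one_cpow, mul_one] at this
    exact this.aestronglyMeasurable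
  have hKφ : ∀ v : ℝ, ‖K ((0 : ℝ) + v * I)‖ ≤ φ v := fun v => by
    have h1 : ‖Rth ((0 : ℝ) + v * I)‖ ≤ 7 := norm_Rth_zero (by simp)
    have h2 : (1 - (((0 : ℝ) : ℂ) + v * I) + I * t).re = 1 := by simp
    have h3 : (1 - (((0 : ℝ) : ℂ) + v * I) + I * t).im ^ 2 = (v - t) ^ 2 := by simp; ring
    rw [hK, hφ, hc₀]
    simp only
    rw [norm_mul, norm_pow, norm_LNt ha.le, h2, h3, one_pow, mul_one]
    calc _ ≤ √(2 * Real.pi) * a * Real.exp (a ^ 2 / 2) * Real.exp (-(a ^ 2 / 2) * (v - t) ^ 2) *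
          7 ^ r := by gcongr
      _ = _ := by ring
  set F : κ → ℂ → ℂ := fun k s => ∑ j ∈ J, x k j * (y k j : ℂ) ^ (-s) with hF
  have hB' : ∀ v : ℝ, ∑ k ∈ A, ‖F k ((0 : ℝ) + v * I)‖ ^ 2 ≤ B := fun v => by
    simpa [hF] using hB v
  have hFc : ∀ k ∈ A, Continuous fun v : ℝ => F k ((0 : ℝ) + v * I) := fun k hk => by
    refine continuous_finsetSum _ fun j hj => continuous_const.mul ?_
    exact Continuous.const_cpow (by fun_prop) (Or.inl (ofReal_ne_zero.2 (hy k hk j hj).ne'))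
  have hFi : ∀ k ∈ A, Integrable fun v : ℝ => φ v * ‖F k ((0 : ℝ) + v * I)‖ ^ 2 := fun k hk => by
    refine (hφi.mul_const B).mono' (hφi.aestronglyMeasurable.mul
      ((hFc k hk).norm.pow 2).aestronglyMeasurable) (Filter.Eventually.of_forall fun v => ?_)
    rw [Real.norm_of_nonneg (mul_nonneg (hφ0 v) (sq_nonneg _))]
    refine mul_le_mul_of_nonneg_left (le_trans ?_ (hB' v)) (hφ0 v)
    exact Finset.single_le_sum (f := fun k => ‖F k ((0 : ℝ) + v * I)‖ ^ 2)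
      (fun _ _ => sq_nonneg _) hk
  have hW : ∀ k ∈ A, ∑ j ∈ J, x k j * WR r a t (y k j) = VI 0 fun s => K s * F k s := fun k hk => by
    have h1 : (fun s => K s * F k s) =
        fun s => ∑ j ∈ J, x k j * (LNt a (1 - s + I * t) * Rth s ^ r * (y k j : ℂ) ^ (-s)) := by
      funext s
      rw [hK, hF]
      simp only [Finset.mul_sum]
      exact Finset.sum_congr rfl fun j _ => by ring
    rw [h1, VI_sum (σ := 0) J
      (F := fun j s => x k j * (LNt a (1 - s + I * t) * Rth s ^ r * (y k j : ℂ) ^ (-s))) fun j hj =>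
      Integrable.const_mul (WR_eq_VI r ha (hy k hk j hj) le_rfl t).1 (x k j)]
    exact Finset.sum_congr rfl fun j _ => by rw [VI_const_mul]; rfl
  calc _ ≤ ∑ k ∈ A, (∫ v, φ v) * ∫ v : ℝ, φ v * ‖F k ((0 : ℝ) + v * I)‖ ^ 2 := by
        refine Finset.sum_le_sum fun k hk => ?_
        rw [hW k hk]
        exact norm_VI_mul_sq_le hKm (hFc k hk).aestronglyMeasurable hKφ hφi (hFi k hk)
    _ = (∫ v, φ v) * ∫ v : ℝ, ∑ k ∈ A, φ v * ‖F k ((0 : ℝ) + v * I)‖ ^ 2 := by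
        rw [← Finset.mul_sum, integral_finsetSum _ hFi]
    _ ≤ (∫ v, φ v) * ∫ v : ℝ, φ v * B := by
        refine mul_le_mul_of_nonneg_left (integral_mono (integrable_finsetSum _ hFi)
          (hφi.mul_const B) fun v => ?_) hI0
        simp only
        rw [← Finset.mul_sum]
        exact mul_le_mul_of_nonneg_left (hB' v) (hφ0 v)
    _ = _ := by rw [integral_mul_const, hφI]; ring

section
variable {ι ι' : Type} {c : ι → ℂ} {l : ι → ℝ} {c' : ι' → ℂ} {l' : ι' → ℝ}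

/-- reflection of a smooth sum, Gamma factor `γ s = B ^ s * gth s ^ r` -/
theorem reflR (h : Adm c l 3) (h' : Adm c' l' 3) (r : ℕ) {a X Q B : ℝ} (ha : 0 < a) (hX : 0 < X)
    (hQ : 0 < Q) (hB : 0 < B) (t : ℝ) {γ Λ Λ' : ℂ → ℂ} {E : ℂ}
    (hγ : ∀ s, γ s = (B : ℂ) ^ s * gth s ^ r) (hΛ : EntBdd Λ)
    (hD : ∀ s : ℂ, 2 < s.re → Λ s = γ s * DD c l s)
    (hD' : ∀ s : ℂ, 2 < s.re → Λ' s = γ s * DD c' l' s)
    (hFE : ∀ s : ℂ, Λ s = E * (Q : ℂ) ^ (1 - 2 * s) * Λ' (1 - s)) :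
    SS c l a X t = E * ((X / (Q * B) : ℝ) : ℂ) *
      ∑' j, c' j * WR r a t (l' j / ((Q * B) ^ 2 / X)) := by
  obtain ⟨M, hM⟩ := hΛ.2 (1 - 3) 3
  have hB0 : (B : ℂ) ≠ 0 := ofReal_ne_zero.2 hB.ne'
  have hL : 0 < (Q * B) ^ 2 / X := by positivity
  have hinv : ∀ s, (γ s)⁻¹ = (B : ℂ) ^ (((-1 : ℝ) : ℂ) * s + ((0 : ℝ) : ℂ)) * (gth s)⁻¹ ^ r := by
    intro s
    rw [hγ, mul_inv, ← cpow_neg, inv_pow]
    congr 2
    push_cast
    ring
  have e1 := h.SS_eq_reflect (D := fun s => Λ s * (γ s)⁻¹) (by norm_num) ha hX t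
    (by
      simp only [hinv]
      exact (hΛ.1.mul ((gc_diff_cpow hB _ _).mul (differentiable_inv_gth.pow r))).differentiableOn)
    (by
      simp only [hinv]
      exact (ExpOn.of_bdd fun s hs => hM s hs.1 hs.2).mul
        ((expOn_cpow hB _ _ _ _).mul (expOn_pow (expOn_inv_gth _ _) r)))
    (fun s hs => by
      have h0 : γ s ≠ 0 := by
        rw [hγ]
        exact mul_ne_zero (cpow_ne_zero_iff.2 (Or.inl hB0))
          (pow_ne_zero _ (gth_ne_zero (by rw [hs]; norm_num)))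
      rw [hD s (by rw [hs]; norm_num)]
      field_simp)
  have hK : VInt 3 fun s =>
      LNt a (1 - s + I * t) * Rth s ^ r * (((Q * B) ^ 2 / X : ℝ) : ℂ) ^ s := by
    refine (WR_eq_VI r ha (div_pos one_pos hL) (by norm_num) t).1.congr fun s _ => ?_
    rw [← kerb_cpow hL one_pos]
    simp
  have e3 := (h'.VI_mul_DD hK).2.tsum_eq
  have e4 : ∑' j, c' j * WR r a t (l' j / ((Q * B) ^ 2 / X)) = ∑' j, c' j * VI 3 fun s =>
      LNt a (1 - s + I * t) * Rth s ^ r * (((Q * B) ^ 2 / X : ℝ) : ℂ) ^ s * (l' j : ℂ) ^ (-s) := by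
    refine tsum_congr fun j => ?_
    by_cases hj : c' j = 0
    · simp [hj]
    have hp := h'.1 j hj
    rw [(WR_eq_VI r ha (div_pos hp hL) (by norm_num : (0 : ℝ) ≤ 3) t).2]
    congr 1
    refine VI_congr fun s _ => ?_
    rw [← kerb_cpow hL hp]
    ring
  rw [e1, e4, e3, ← VI_const_mul]
  refine VI_congr fun s hs => ?_
  have e5 : (X : ℂ) ^ (1 - s) * ((Q : ℂ) ^ (1 - 2 * (1 - s)) * ((B : ℂ) ^ s * ((B : ℂ) ^ (1 - s))⁻¹)) =
      ((X / (Q * B) : ℝ) : ℂ) * (((Q * B) ^ 2 / X : ℝ) : ℂ) ^ s := by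
    have e6 : ((X / (Q * B) : ℝ) : ℂ) = cexp ((Real.log (X / (Q * B)) : ℝ) : ℂ) := by
      rw [← ofReal_exp, Real.exp_log (by positivity)]
    rw [e6, rfa_cpow hX, rfa_cpow hQ, rfa_cpow hB, rfa_cpow hB, rfa_cpow hL, ← Complex.exp_neg,
      ← Complex.exp_add, ← Complex.exp_add, ← Complex.exp_add, ← Complex.exp_add,
      Real.log_div hX.ne' (by positivity), Real.log_div (by positivity) hX.ne', Real.log_pow,
      Real.log_mul hQ.ne' hB.ne']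
    congr 1
    push_cast
    ring
  rw [hFE (1 - s), sub_sub_cancel, hD' s (by rw [hs]; norm_num), hγ, hγ, Rth, mul_pow, mul_inv,
    inv_pow]
  linear_combination (LNt a (1 - s + I * t) * E * gth s ^ r * (gth (1 - s) ^ r)⁻¹ *
    DD c' l' s) * e5

theorem kr_term (r : ℕ) {a : ℝ} (ha : 0 < a) (m : ℕ) : ∃ C : ℝ, 0 ≤ C ∧
    ∀ (b G : ℂ) (t L y : ℝ), ‖G‖ ≤ 1 → 0 < L → 0 < y →
      ‖b * G * WR r a t (y / L)‖ ≤
        C * (1 + |t|) ^ (2 * m * r) * L ^ ((m + 1) / 2 : ℝ) * (‖b‖ * y ^ (-((m + 1) / 2 : ℝ))) := by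
  obtain ⟨C, hC, h⟩ := norm_WR_le r ha m
  refine ⟨C, hC, fun b G t L y hG hL hy => ?_⟩
  have e1 := h t _ (div_pos hy hL)
  rw [norm_mul, norm_mul]
  refine (mul_le_mul (mul_le_of_le_one_right (norm_nonneg _) hG) e1 (norm_nonneg _)
    (norm_nonneg _)).trans (le_of_eq ?_)
  rw [Real.div_rpow hy.le hL.le, Real.rpow_neg hL.le, div_inv_eq_mul]
  ring

theorem summable_WR (h : Adm c l 3) (hl : ∀ j, 0 < l j) (r : ℕ) {a L : ℝ} (ha : 0 < a) (hL : 0 < L)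
    (t : ℝ) {G : ι → ℂ} (hG : ∀ j, ‖G j‖ ≤ 1) :
    Summable fun j => c j * G j * WR r a t (l j / L) := by
  obtain ⟨C, -, hC⟩ := kr_term r ha 5
  refine Summable.of_norm_bounded (h.2.mul_left
    (C * (1 + |t|) ^ (2 * 5 * r) * L ^ (((5 : ℕ) + 1) / 2 : ℝ))) fun j => ?_
  have := hC (c j) (G j) t L (l j) (hG j) hL (hl j)
  rwa [show (-((((5 : ℕ) : ℝ) + 1) / 2)) = -3 by norm_num] at this

/-- the tail of a dual sum -/
theorem tailR (h : Adm c l 3) (hl : ∀ j, 0 < l j) (r : ℕ) {a : ℝ} (ha : 0 < a) {m : ℕ}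
    (hm : 5 ≤ m) : ∃ C : ℝ, 0 ≤ C ∧ ∀ (G : ι → ℂ) (t L L' : ℝ) (S : Finset ι), (∀ j, ‖G j‖ ≤ 1) →
      0 < L → 0 < L' → (∀ j, j ∉ S → L' ≤ l j) →
      ‖∑' j, c j * G j * WR r a t (l j / L) - ∑ j ∈ S, c j * G j * WR r a t (l j / L)‖ ≤
        C * ((1 + |t|) ^ (4 * r) * L / L') ^ ((m + 1) / 2 : ℝ) * L' ^ 3 := by
  obtain ⟨C₁, hC₁, h₁⟩ := kr_term r ha m
  have hm' : (5 : ℝ) ≤ m := by exact_mod_cast hm
  refine ⟨C₁ * DA c l 3, mul_nonneg hC₁ (DA_nonneg h), fun G t L L' S hG hL hL' hS => ?_⟩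
  have hs := summable_WR h hl r ha hL t hG
  set f : ι → ℂ := fun j => c j * G j * WR r a t (l j / L) with hf
  set K : ℝ := C₁ * (1 + |t|) ^ (2 * m * r) * L ^ ((m + 1) / 2 : ℝ) *
    L' ^ (3 - (m + 1) / 2 : ℝ) with hK
  have hK0 : 0 ≤ K := by positivity
  have h0 : ∀ j, 0 ≤ ‖c j‖ * l j ^ (-3 : ℝ) := fun j => by have := hl j; positivity
  have hb : ∀ j, j ∉ S → ‖f j‖ ≤ K * (‖c j‖ * l j ^ (-3 : ℝ)) := fun j hj => by
    refine (h₁ (c j) (G j) t L (l j) (hG j) hL (hl j)).trans ?_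
    have e : l j ^ (-((m + 1) / 2 : ℝ)) ≤ L' ^ (3 - (m + 1) / 2 : ℝ) * l j ^ (-3 : ℝ) := by
      rw [show (-((m + 1) / 2 : ℝ)) = (3 - (m + 1) / 2) + -3 by ring, Real.rpow_add (hl j)]
      refine mul_le_mul_of_nonneg_right ?_ (Real.rpow_nonneg (hl j).le _)
      exact Real.rpow_le_rpow_of_nonpos hL' (hS j hj) (by linarith)
    calc _ ≤ C₁ * (1 + |t|) ^ (2 * m * r) * L ^ ((m + 1) / 2 : ℝ) *
          (‖c j‖ * (L' ^ (3 - (m + 1) / 2 : ℝ) * l j ^ (-3 : ℝ))) := by gcongr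
      _ = _ := by rw [hK]; ring
  have h3 : ‖∑' j, f j - ∑ j ∈ S, f j‖ ≤ K * DA c l 3 := by
    rw [← hs.sum_add_tsum_compl (s := S), add_sub_cancel_left]
    have hs' := (hs.norm).subtype ((S : Set ι)ᶜ)
    refine (norm_tsum_le_tsum_norm hs').trans (hs'.tsum_le_of_sum_le fun u => ?_)
    have e : ∑ x ∈ u, ‖f x‖ = ∑ j ∈ u.map (Function.Embedding.subtype _), ‖f j‖ := by
      rw [Finset.sum_map]
      rfl
    refine e.trans_le ((Finset.sum_le_sum fun j hj => hb j ?_).trans ?_)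
    · obtain ⟨x, -, rfl⟩ := Finset.mem_map.1 hj
      exact x.2
    · rw [← Finset.mul_sum]
      exact mul_le_mul_of_nonneg_left (h.2.sum_le_tsum _ fun j _ => h0 j) hK0
  refine h3.trans ?_
  have ht : (1 : ℝ) ≤ 1 + |t| := le_add_of_nonneg_right (abs_nonneg t)
  have e1 : (1 + |t|) ^ (2 * m * r) ≤ ((1 + |t|) ^ (4 * r)) ^ ((m + 1) / 2 : ℝ) := by
    rw [← Real.rpow_natCast, ← Real.rpow_natCast, ← Real.rpow_mul (by linarith)]
    refine Real.rpow_le_rpow_of_exponent_le ht ?_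
    push_cast
    have : (0 : ℝ) ≤ r := Nat.cast_nonneg r
    nlinarith
  have hD := DA_nonneg h
  rw [Real.div_rpow (by positivity) hL'.le, Real.mul_rpow (by positivity) hL.le, hK,
    Real.rpow_sub hL', Real.rpow_ofNat]
  calc C₁ * (1 + |t|) ^ (2 * m * r) * L ^ ((m + 1) / 2 : ℝ) * (L' ^ 3 / L' ^ ((m + 1) / 2 : ℝ)) *
        DA c l 3
      ≤ C₁ * ((1 + |t|) ^ (4 * r)) ^ ((m + 1) / 2 : ℝ) * L ^ ((m + 1) / 2 : ℝ) *
        (L' ^ 3 / L' ^ ((m + 1) / 2 : ℝ)) * DA c l 3 := by gcongr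
    _ = _ := by ring

end

end Crest.Agent.R27.F
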