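import Crest.Agent.R27.F.Fx
import Crest.Agent.R27.F.Core
import Crest.Agent.R27.F.DE

/-!
Row 27, block F: removing the squarefull part of the rows; `StF`.
-/

set_option autoImplicit false
set_option linter.unusedSectionVars false

namespace Crest.Agent.R27.F

open Crest.Agent.R27.Ab
open Crest.Agent.R17 (LN SS)
open Crest.Agent.R17.F (sq_sum_le_card)
open scoped Classical ComplexConjugate

variable {R : Type} [CommRing R] [IsDomain R] [IsPrincipalIdealRing R] [Abs R]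

/-- one squarefull part `f` -/
theorem s4_fixed {x : Cl R} {D : ℕ} (h : S5 x D) {a ε : ℝ} (ha : 0 < a) (hε : 0 < ε) :
    ∃ C : ℝ, 0 ≤ C ∧ ∀ (f : R) (Z K Y t : ℝ) (A : Finset R), 1 ≤ K → K ≤ Z → Z⁻¹ ≤ Y → Y ≤ Z →
      Prim f → Exp f → (∀ k ∈ A, Prim k ∧ Squarefree k ∧ IsCoprime f k ∧ nm (f * k) ≤ K) →
      ∑ k ∈ A, ‖Th x (fun n => conj (sx n (f * k))) a Y t‖ ^ 2 ≤
        C * Z ^ ε * (1 + |t|) ^ D * (Y * K + K ^ 2) * (√(nm f))⁻¹ := by
  obtain ⟨C, hC, h1⟩ := h a ε ha hε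
  refine ⟨C, hC, ?_⟩
  rintro f Z K Y t A hK hKZ hY hYZ hf ⟨ι, I, e, χ, w, hI, he, hex⟩ hA
  have hZ : 0 < Z := by linarith
  have hY0 : 0 < Y := (inv_pos.2 hZ).trans_le hY
  have hf0 := nm_pos (p_ne hf)
  rcases A.eq_empty_or_nonempty with rfl | ⟨k₀, hk₀⟩
  · rw [Finset.sum_empty]
    positivity
  have hfK : nm f ≤ K := by
    obtain ⟨h3, -, -, h4⟩ := hA k₀ hk₀
    exact (nm_le_of_dvd (dvd_mul_right f k₀) (p_ne (p_mul hf h3))).trans h4
  have hf1 := one_le_nm (p_ne hf)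
  obtain ⟨B, hB⟩ : ∃ B, B = C * Z ^ ε * (1 + |t|) ^ D * (Y * K + K ^ 2) / nm f := ⟨_, rfl⟩
  have hB0 : 0 ≤ B := by rw [hB]; positivity
  have key : ∀ i ∈ I, ∑ k ∈ A, (‖Th x (fun n => Fp (e i) (χ i) n * conj (sx n k)) a Y t‖ /
      nm (e i)) ^ 2 ≤ B := by
    intro i hi
    obtain ⟨h3, h4, h5⟩ := he i hi
    have h7 : e i ∣ f := (dvd_pow_self _ two_ne_zero).trans h4
    have h8 := nm_pos (p_ne h3)
    have h9 : nm (e i) ^ 2 ≤ nm f := by
      rw [← nm_pow]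
      exact nm_le_of_dvd h4 (p_ne hf)
    simp only [div_pow]
    rw [← Finset.sum_div, div_le_iff₀ (by positivity)]
    refine (h1 (e i) (χ i) Z (K / nm f) Y t A h3 h5
      ((nm_le_of_dvd h7 (p_ne hf)).trans (hfK.trans hKZ)) ((one_le_div hf0).2 hfK)
      ((div_le_self (by linarith) hf1).trans hKZ) hY hYZ fun k hk => ?_).trans ?_
    · obtain ⟨k1, k2, k4, k5⟩ := hA k hk
      refine ⟨⟨k1, k2, ?_⟩, k4.symm.of_isCoprime_of_dvd_right h7⟩
      rw [le_div_iff₀ hf0, mul_comm, ← nm_mul]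
      exact k5
    · calc _ ≤ C * Z ^ ε * (1 + |t|) ^ D *
            (nm (e i) ^ 2 * (Y * (K / nm f) + nm f * (K / nm f) ^ 2)) := by
            rw [mul_pow (nm (e i))]
            gcongr
        _ = _ := by rw [hB]; field_simp
  have hexp : ∀ k, Th x (fun n => conj (sx n (f * k))) a Y t =
      ∑ i ∈ I, w i * Th x (fun n => Fp (e i) (χ i) n * conj (sx n k)) a Y t := by
    intro k
    simp only [← Th_const_mul]
    rw [← Th_sum x I (fun i hi => ⟨‖w i‖ * nm (e i), fun n => ?_⟩) ha hY0 t]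
    · simp only [sx_mul_right, map_mul, hex, Finset.sum_mul, mul_assoc]
    · rw [norm_mul, norm_mul, Complex.norm_conj]
      exact mul_le_mul_of_nonneg_left ((mul_le_of_le_one_right (norm_nonneg _) (norm_sx_le _ _)).trans
        (Fp_bdd (p_ne (he i hi).1) (he i hi).2.2 n)) (norm_nonneg _)
  have hw : ∀ i, 0 ≤ ‖w i‖ * nm (e i) := fun i => mul_nonneg (norm_nonneg _) (nm_nonneg _)
  have hS := Finset.sum_nonneg fun i (_ : i ∈ I) => hw i
  calc _ ≤ ∑ k ∈ A, (∑ i ∈ I, ‖w i‖ * nm (e i)) * ∑ i ∈ I, ‖w i‖ * nm (e i) *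
          (‖Th x (fun n => Fp (e i) (χ i) n * conj (sx n k)) a Y t‖ / nm (e i)) ^ 2 := by
        refine Finset.sum_le_sum fun k _ => ?_
        rw [hexp]
        refine (pow_le_pow_left₀ (norm_nonneg _) (norm_sum_le _ _) 2).trans
          (Finset.sum_sq_le_sum_mul_sum_of_sq_le_mul _ (fun i _ => hw i)
            (fun i _ => mul_nonneg (hw i) (sq_nonneg _)) fun i hi => le_of_eq ?_)
        have := nm_pos (p_ne (he i hi).1)
        rw [norm_mul]
        field_simp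
    _ ≤ (∑ i ∈ I, ‖w i‖ * nm (e i)) * ((∑ i ∈ I, ‖w i‖ * nm (e i)) * B) := by
        rw [← Finset.mul_sum, Finset.sum_comm]
        refine mul_le_mul_of_nonneg_left ?_ hS
        rw [Finset.sum_mul]
        refine Finset.sum_le_sum fun i hi => ?_
        rw [← Finset.mul_sum]
        exact mul_le_mul_of_nonneg_left (key i hi) (hw i)
    _ ≤ √(nm f) * B := by
        rw [← mul_assoc, ← sq]
        refine mul_le_mul_of_nonneg_right (Real.le_sqrt_of_sq_le ?_) hB0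
        rwa [← pow_mul]
    _ = _ := by
        rw [hB, ← mul_div_assoc, mul_comm (√(nm f)), mul_div_assoc, Real.sqrt_div_self]

theorem s4_of_s5 {x : Cl R} {D : ℕ} (h : S5 x D) : S4 x D := by
  intro a ε ha hε
  have hε' : 0 < ε / 3 := by positivity
  obtain ⟨C₁, hC₁, h1⟩ := s4_fixed h ha hε'
  obtain ⟨C₂, hC₂, h2⟩ := p_inv (R := R) hε'
  refine ⟨C₁ * C₂ ^ 2, by positivity, fun Z K Y t A hK hKZ hY hYZ hA => ?_⟩
  choose! u c m hF using fun k (hk : Prim k) => fx (R := R) hk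
  have hZ : 0 < Z := by linarith
  have hY0 : 0 < Y := (inv_pos.2 hZ).trans_le hY
  have hi : ∀ n : R, 0 ≤ (nm n)⁻¹ := fun n => inv_nonneg.2 (nm_nonneg n)
  have key : ∀ q ∈ A.image u ×ˢ A.image c, ∑ k ∈ A.filter (fun k => (u k, c k) = q),
      ‖Th x (fun n => conj (sx n k)) a Y t‖ ^ 2 ≤
      C₁ * Z ^ (ε / 3) * (1 + |t|) ^ D * (Y * K + K ^ 2) * ((nm q.1)⁻¹ * (nm q.2)⁻¹) := by
    intro q _
    rcases (A.filter fun k => (u k, c k) = q).eq_empty_or_nonempty with h0 | ⟨k₀, hk₀⟩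
    · rw [h0, Finset.sum_empty]
      exact mul_nonneg (by positivity) (mul_nonneg (hi _) (hi _))
    obtain ⟨hk₀, hq⟩ := Finset.mem_filter.1 hk₀
    obtain ⟨b1, b2, -, -, -, -, b3⟩ := hF k₀ (hA k₀ hk₀).1
    rw [show u k₀ = q.1 from congrArg Prod.fst hq] at b1 b3
    rw [show c k₀ = q.2 from congrArg Prod.snd hq] at b2 b3
    have hk : ∀ k ∈ A.filter fun k => (u k, c k) = q, k = q.1 ^ 2 * q.2 ^ 3 * m k := fun k hk => by
      obtain ⟨k1, rfl⟩ := Finset.mem_filter.1 hk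
      exact (hF k (hA k k1).1).2.2.2.2.2.1
    have h3 := h1 (q.1 ^ 2 * q.2 ^ 3) Z K Y t ((A.filter fun k => (u k, c k) = q).image m) hK hKZ hY
      hYZ (p_mul (p_pow b1 2) (p_pow b2 3)) b3 fun k₁ hk₁ => by
        obtain ⟨k, hk', rfl⟩ := Finset.mem_image.1 hk₁
        rw [← hk k hk']
        obtain ⟨k1, rfl⟩ := Finset.mem_filter.1 hk'
        obtain ⟨-, -, f2, f4, f5, -⟩ := hF k (hA k k1).1
        exact ⟨f2, f4, f5, (hA k k1).2⟩
    rw [Finset.sum_image fun x hx y hy hxy => by rw [hk x hx, hk y hy, hxy]] at h3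
    rw [Finset.sum_congr rfl fun k hk' => by rw [← hk k hk']] at h3
    refine h3.trans (mul_le_mul_of_nonneg_left ?_ (by positivity))
    have c1 := one_le_nm (p_ne b1)
    have c2 := one_le_nm (p_ne b2)
    rw [← mul_inv]
    refine inv_anti₀ (by positivity) (Real.le_sqrt_of_sq_le ?_)
    rw [nm_mul, nm_pow, nm_pow, mul_pow]
    exact mul_le_mul_of_nonneg_left (pow_le_pow_right₀ c2 (by norm_num)) (by positivity)
  have hinv : ∀ f : R → R, (∀ k ∈ A, Prim (f k) ∧ f k ∣ k) →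
      ∑ n ∈ A.image f, (nm n)⁻¹ ≤ C₂ * Z ^ (ε / 3) := fun f hf =>
    h2 _ _ hZ.le fun n hn => by
      obtain ⟨k, hk, rfl⟩ := Finset.mem_image.1 hn
      exact ⟨(hf k hk).1, (nm_le_of_dvd (hf k hk).2 (p_ne (hA k hk).1)).trans ((hA k hk).2.trans hKZ)⟩
  rw [← Finset.sum_fiberwise_of_maps_to (g := fun k => (u k, c k)) (t := A.image u ×ˢ A.image c)
    fun k hk => Finset.mem_product.2 ⟨Finset.mem_image_of_mem u hk, Finset.mem_image_of_mem c hk⟩]
  refine (Finset.sum_le_sum key).trans ?_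
  rw [← Finset.mul_sum, Finset.sum_product' (f := fun y z : R => (nm y)⁻¹ * (nm z)⁻¹),
    ← Finset.sum_mul_sum]
  refine (mul_le_mul_of_nonneg_left (mul_le_mul
    (hinv u fun k hk => ⟨(hF k (hA k hk).1).1, u k * c k ^ 3 * m k,
      (hF k (hA k hk).1).2.2.2.2.2.1.trans (by ring)⟩)
    (hinv c fun k hk => ⟨(hF k (hA k hk).1).2.1, u k ^ 2 * c k ^ 2 * m k,
      (hF k (hA k hk).1).2.2.2.2.2.1.trans (by ring)⟩)
    (Finset.sum_nonneg fun _ _ => hi _) (by positivity)) (by positivity)).trans (le_of_eq ?_)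
  rw [show Z ^ ε = Z ^ (ε / 3) * Z ^ (ε / 3) * Z ^ (ε / 3) by
    rw [← Real.rpow_add hZ, ← Real.rpow_add hZ, add_thirds]]
  ring

theorem TT_eq (ρ : Cl R → ℂ) {a X : ℝ} (ha : 0 < a) (hX : 0 < X) (t : ℝ) {k : R} (hk : k ≠ 0) :
    TT ρ a X t k =
      ∑ x, ρ x * conj (hs (cls k) x) * Th x (fun n => conj (sx n k)) a X t := by
  simp only [← Th_const_mul]
  simp only [Th, SS]
  rw [TT, ← Summable.tsum_finsetSum fun x _ => ((adm_Th x (B := ‖ρ x‖)
    (G := fun n => ρ x * conj (hs (cls k) x) * conj (sx n k)) fun n => by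
    rw [norm_mul, norm_mul, Complex.norm_conj, Complex.norm_conj, norm_hs, mul_one]
    exact mul_le_of_le_one_right (norm_nonneg _) (norm_sx_le _ _)).summable_SS ha hX t).of_norm]
  refine tsum_congr fun n => ?_
  simp only [tc, ite_mul, zero_mul, Finset.sum_ite_eq, Finset.mem_univ, if_true]
  rw [sx_recip hk (p_ne n.2), map_mul]
  ring

theorem stF_of {D : ℕ} (h : ∀ x : Cl R, S4 x D) : StF R := by
  intro a ε ha hε
  choose C hC H using fun x => h x a ε ha hε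
  have hS : 0 ≤ ∑ x, C x := Finset.sum_nonneg fun x _ => hC x
  refine ⟨Fintype.card (Cl R) * ∑ x, C x + D, fun ρ Z K X t A hρ hK hKZ hX hXZ hA => ?_⟩
  have hZ : 0 < Z := by linarith
  have hX0 : 0 < X := (inv_pos.2 hZ).trans_le hX
  have ht : 1 ≤ 1 + |t| := by linarith [abs_nonneg t]
  calc _ ≤ ∑ k ∈ A, (Fintype.card (Cl R) : ℝ) *
          ∑ x : Cl R, ‖Th x (fun n => conj (sx n k)) a X t‖ ^ 2 := by
        refine Finset.sum_le_sum fun k hk => ?_
        rw [TT_eq ρ ha hX0 t (p_ne (hA k hk).1)]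
        refine (sq_sum_le_card _ _).trans (mul_le_mul_of_nonneg_left
          (Finset.sum_le_sum fun x _ => pow_le_pow_left₀ (norm_nonneg _) ?_ 2) (by positivity))
        rw [norm_mul, norm_mul, Complex.norm_conj, norm_hs, mul_one]
        exact mul_le_of_le_one_left (norm_nonneg _) (hρ x)
    _ ≤ (Fintype.card (Cl R) : ℝ) * ∑ x, C x * Z ^ ε * (1 + |t|) ^ D * (X * K + K ^ 2) := by
        rw [← Finset.mul_sum, Finset.sum_comm]
        exact mul_le_mul_of_nonneg_left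
          (Finset.sum_le_sum fun x _ => H x Z K X t A hK hKZ hX hXZ hA) (by positivity)
    _ = (Fintype.card (Cl R) * ∑ x, C x) * Z ^ ε * (1 + |t|) ^ (D : ℝ) * (X * K + K ^ 2) := by
        rw [← Finset.sum_mul, ← Finset.sum_mul, ← Finset.sum_mul, Real.rpow_natCast]
        ring
    _ ≤ _ := by
        gcongr
        · exact le_add_of_nonneg_right (Nat.cast_nonneg D)
        · exact le_add_of_nonneg_left (by positivity)

/-- block F -/
theorem stF (hT : StTheta R) (hE : StE R) : StF R := by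
  obtain ⟨r, C, I, J, _, ν, ε, -, hC, h1, h2, H⟩ := hT
  refine stF_of (D := 24 * r) fun x => s4_of_s5 ?_
  obtain ⟨κ, β, hβ, hF⟩ := H x
  exact s5_of (κ := κ) (b := fun j p => β j p.1 p.2)
    (fun j => dual_of hE hC h1 h2 ε fun p => hβ j p.1 p.2) fun c hc Φ Φ' => hF c Φ Φ' hc

end Crest.Agent.R27.F
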